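import Vale.Agent.P231.H230.Cut8

/-!
# P231, stage 3, block K2 (4): the class of `F` on the cut locus, two leaves
-/

set_option maxSynthPendingDepth 3
set_option linter.unusedSectionVars false
set_option linter.unusedVariables false

open Bundle Manifold Set Filter Module MeasureTheory Metric
open scoped ContDiff Manifold Topology

namespace Vale.Agent.P231.H230

noncomputable section

open Vale.Agent.P231.Fm Vale.Agent.P231.W Vale.Agent.P231.WF
open Vale.Agent.P231.WA (prt evalForm_prt)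

/-! ### the bump form -/

section Bmp

variable {X : Type*} {D : Dif X} {V : Type} [NormedAddCommGroup V] [NormedSpace ℝ V]
  [FiniteDimensional ℝ V] [TopologicalSpace X] [T2Space X] (hpc : PlotsCont D)
  (C : S3I.Cht D V) {W : V → Lam V} (hW : ContDiff ℝ ∞ W) (hWc : HasCompactSupport W)

theorem bmp_near {G : Type} [NormedAddCommGroup G] [NormedSpace ℝ G] [FiniteDimensional ℝ G]
    {u : G → X} {x : G} (hu : D.At u x) :
    (u x ∈ C.U ∧ Sm (C.f ∘ u) x ∧ (C.bmp hpc hW hWc).val u =ᶠ[𝓝 x] pb (C.f ∘ u) W) ∨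
      (C.bmp hpc hW hWc).val u =ᶠ[𝓝 x] fun _ => 0 := by
  have hA : ∀ᶠ y in 𝓝 x, D.At u y := D.open' hu
  by_cases h : u x ∈ C.U
  · refine Or.inl ⟨h, ?_, ?_⟩
    · exact C.mf (u := u) ⟨hu, C.opn.out hu h⟩
    · filter_upwards [hA, C.opn.out hu h] with y k1 k2
      exact C.bmp_val hpc hW hWc k1 k2
  · refine Or.inr ?_
    have h1 : u x ∈ (C.c '' tsupport W)ᶜ := by
      rintro ⟨y, -, hy⟩
      exact h (hy ▸ C.mem y)
    filter_upwards [hA, (C.isO_compl hpc hWc.isCompact).out hu h1] with y k1 k2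
    exact C.bmp_zero hpc hW hWc k1 k2

theorem bmp_d (h : ∀ y, extd W y = 0) : (C.bmp hpc hW hWc).d = 0 := by
  refine Form.ext_val fun G _ _ _ u x hu => ?_
  rw [Form.d_val _ hu, Form.zero_val]
  rcases bmp_near hpc C hW hWc hu with ⟨h1, h2, h3⟩ | h3
  · rw [extd_congr h3, extd_pb ((h2.self_of_nhds).of_le two_le_inf)
      (hW.differentiable (by simp) _), pb, h, map_zero]
  · rw [extd_congr h3, extd_of (hasFDerivAt_const _ _), map_zero]

theorem bmp_deg {k : ℕ} (h : ∀ y, prt k (W y) = W y) : Form.IsDeg k (C.bmp hpc hW hWc) := by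
  refine Form.ext_val fun G _ _ _ u x hu => ?_
  rw [Form.part_val]
  rcases bmp_near hpc C hW hWc hu with ⟨h1, h2, h3⟩ | h3
  · rw [h3.self_of_nhds, pb, WA.prt_pull]
    exact congrArg _ (h _)
  · rw [h3.self_of_nhds, map_zero]

end Bmp

/-! ### the chart of the cut locus -/

open Vale.Agent.P234 Vale.Agent.P231 Vale.Agent.P231.H775
open Vale.Agent.P231.WE Vale.Agent.P231.FE Vale.Agent.P231.CoC
open Vale.Agent.P231.TW (gg gg_pos gg_zero)

variable {E : Type*} [NormedAddCommGroup E] [NormedSpace ℝ E] [FiniteDimensional ℝ E]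
  {M : Type*} [MetricSpace M] [ChartedSpace E M] [IsManifold 𝓘(ℝ, E) ∞ M]
  [RiemannianBundle (fun x : M => TangentSpace 𝓘(ℝ, E) x)]
  [IsContMDiffRiemannianBundle 𝓘(ℝ, E) ∞ E (fun x : M => TangentSpace 𝓘(ℝ, E) x)]
  {e : ∀ x : M, TangentSpace 𝓘(ℝ, E) x → M}
  [CompactSpace M] [ConnectedSpace M] [IsRiemannianManifold 𝓘(ℝ, E) M]

theorem plotsCont_dC (F : Facts e) (D : ℝ) (p : M) : PlotsCont (dC e D p) := fun {G} _ _ _ {u x} hu =>
  plotsCont_dM (E := E) (M := M) (u := u) (x := x) (map_dC F D p hu)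

section Cht

variable {D : ℝ} {p : M} {n : ℕ}
  {Pi : TangentSpace 𝓘(ℝ, E) p → TangentSpace 𝓘(ℝ, E) p →L[ℝ] TangentSpace 𝓘(ℝ, E) p}
  {o : TangentSpace 𝓘(ℝ, E) p → Fm.Lam (TangentSpace 𝓘(ℝ, E) p)}
  {L : Em n →L[ℝ] TangentSpace 𝓘(ℝ, E) p} {c0 : TangentSpace 𝓘(ℝ, E) p}
  (hJ : LineP e D p n Pi o) (hL : L ∈ FrS n Pi o) (hc0 : Pi (L (CoC.bE n 0)) c0 ≠ c0)
  (hT : finrank ℝ E = 2 * (2 * n + 2)) (v₀ : UT E M)

include hJ hL hc0 v₀ in
theorem at_cC (x : Em n) : (dC e D p).At (cC e D L c0) x := by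
  have h1 : ((dUT E M).on (up p)).At (fun x => mkp p v₀ (rad (c0 + L x))) x := by
    refine at_mkp (f := fun x => rad (c0 + L x)) ?_ ?_
    · exact Eventually.of_forall fun y => (cd_rad (aff_ne_zero (hL0 hJ hL) hc0 y)).comp y
        (contDiffAt_const.add L.contDiff.contDiffAt)
    · exact Eventually.of_forall fun y => nrm_rad' (aff_ne_zero (hL0 hJ hL) hc0 y)
  refine (dC e D p).congr ((Dif.map_quot : ((dUT E M).on (up p)).Map (dC e D p) (bar e D)) h1) ?_
  refine Eventually.of_forall fun y => ?_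
  exact bar_mkp (nrm_rad' (aff_ne_zero (hL0 hJ hL) hc0 y))

/-- **the chart of the cut locus** -/
def chtC : S3I.Cht (dC e D p) (Em n) where
  U := UC e D Pi L
  c := cC e D L c0
  f := fC e D Pi L c0
  opn := isO_UC hJ hL
  plot := at_cC hJ hL hc0 v₀
  mf := map_fC hJ hL
  mem := cC_mem hJ hL hc0
  fc := fC_cC hJ hL hc0
  cf := fun y hy => cC_fC hJ hL hc0 hT hy

variable (F : Facts e) {W : Em n → Lam (Em n)} (hW : ContDiff ℝ ∞ W) (hWc : HasCompactSupport W)

theorem LC_bmp : LC v₀ L c0 ((chtC hJ hL hc0 hT v₀).bmp (plotsCont_dC F D p) hW hWc) =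
    ∫ y, evalForm (W y) (CoC.bE n) := by
  set C := chtC (e := e) (D := D) hJ hL hc0 hT v₀ with hC
  have hid : ∀ x : Em n, (Dif.lin (Em n)).At (id : Em n → Em n) x := fun x =>
    Sm.of_contDiff contDiff_id x
  have h1 : ∀ x : Em n, x ∉ ball (0 : Em n) 1 →
      evalForm ((C.bmp (plotsCont_dC F D p) hW hWc).val (CS e D v₀ L c0) x) (CoC.bE n) = 0 := by
    intro x hx
    rw [mem_ball_zero_iff, not_lt] at hx
    have h2 : (C.bmp (plotsCont_dC F D p) hW hWc).val (CS e D v₀ L c0) x = 0 := by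
      refine C.bmp_zero (plotsCont_dC F D p) hW hWc (map_CS hJ hL hc0 v₀ (hid x)) ?_
      rintro ⟨y, -, hy⟩
      have h3 : C.c y ∈ C.U := C.mem y
      rw [hy] at h3
      change CS e D v₀ L c0 x ∈ UC e D Pi L at h3
      rw [CS_out hJ hL hc0 v₀ hx] at h3
      exact qS_not_mem hJ hL h3
    rw [h2, Q.evalForm_zero]
  have h5 := integral_rm volume (CoC.bE n).toBasis W
  rw [OrthonormalBasis.coe_toBasis] at h5
  rw [LC, ← setIntegral_eq_integral_of_forall_compl_eq_zero h1, ← h5]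
  refine setIntegral_congr_fun measurableSet_ball fun x hx => ?_
  rw [mem_ball_zero_iff] at hx
  have hv := C.bmp_val (plotsCont_dC F D p) hW hWc (u := CS e D v₀ L c0) (x := x)
    (map_CS hJ hL hc0 v₀ (hid x)) (CS_in hJ hL hc0 v₀ hx).1
  rw [hv]
  have h2 : C.f ∘ CS e D v₀ L c0 =ᶠ[𝓝 x] rm := by
    filter_upwards [(isOpen_lt continuous_norm continuous_const).mem_nhds hx] with y hy
    exact (CS_in hJ hL hc0 v₀ hy).2
  have h3 : C.f (CS e D v₀ L c0 x) = rm x := h2.self_of_nhds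
  rw [h2.fderiv_eq, h3]
  rfl

include hJ hL hc0 in
theorem integrable_LC {k : ℕ} {w : Form (dC e D p)} (hw : Form.IsDeg (k + 1) w) :
    Integrable fun x => evalForm (w.val (CS e D v₀ L c0) x) (CoC.bE n) := by
  have hid : ∀ x : Em n, (Dif.lin (Em n)).At (id : Em n → Em n) x := fun x =>
    Sm.of_contDiff contDiff_id x
  have hc : Continuous fun x => w.val (CS e D v₀ L c0) x := continuous_iff_continuousAt.2 fun x =>
    (w.smooth (map_CS hJ hL hc0 v₀ (hid x))).continuousAt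
  refine Continuous.integrable_of_hasCompactSupport ((evalL _).continuous.comp hc) ?_
  refine HasCompactSupport.intro (isCompact_closedBall (0 : Em n) 1) fun x hx => ?_
  rw [mem_closedBall_zero_iff, not_le] at hx
  have h1 : w.val (CS e D v₀ L c0) x = 0 := by
    refine TH.val_const hw (map_CS hJ hL hc0 v₀ (hid x)) (c := TH.qS e D L) ?_
    filter_upwards [(isOpen_lt continuous_const continuous_norm).mem_nhds hx] with y hy
    exact CS_out hJ hL hc0 v₀ (le_of_lt hy)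
  change evalL _ (w.val (CS e D v₀ L c0) x) = 0
  rw [h1, map_zero]

end Cht

section Main

variable (F : Facts e) {D : ℝ} (hD : 0 < D) (hB : InjGE e D)
    (hdiam : ∀ p q : M, dist p q ≤ D) {p : M} {n : ℕ}
    (hl : ∀ x y : M, dist x y = D → finrank ℝ (Pl e D x y) = 2 * n + 2)
  {Pi : TangentSpace 𝓘(ℝ, E) p → TangentSpace 𝓘(ℝ, E) p →L[ℝ] TangentSpace 𝓘(ℝ, E) p}
  {o : TangentSpace 𝓘(ℝ, E) p → Fm.Lam (TangentSpace 𝓘(ℝ, E) p)}
  {ρ : TangentSpace 𝓘(ℝ, E) p → ℝ} {r₀ : ℝ}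
    (hJ : LineP e D p n Pi o) (hρ : Rho e D p ρ r₀) {a : ℝ} (ha : a ≠ 0)
    (hT : finrank ℝ E = 2 * (2 * n + 2))

include ha hT in
/-- **the class of `F` on the cut locus**: `± κ` times the class of a bump form of integral one -/
theorem exists_cht : ∃ (C : S3I.Cht (dC e D p) (Em n)) (c : ℝ), c ^ 2 = FE.kap n a ^ 2 ∧
    ∀ {W : Em n → Lam (Em n)} (hW : ContDiff ℝ ∞ W) (hWc : HasCompactSupport W),
      (∀ y, prt (2 * n + 2) (W y) = W y) → ∫ y, evalForm (W y) (CoC.bE n) = 1 →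
      ∃ lam : Form (dC e D p), Form.pull id (map_dC F D p) (FF F hD hB hdiam hl hJ hρ a) =
        c • C.bmp (plotsCont_dC F D p) hW hWc + lam.d := by
  have : Nontrivial E := nontrivial_of_finrank_pos (R := ℝ) (by omega)
  have hu : ∃ u : TangentSpace 𝓘(ℝ, E) p, ‖u‖ = 1 := by
    have : Nontrivial (TangentSpace 𝓘(ℝ, E) p) := ‹Nontrivial E›
    exact exists_norm_eq (TangentSpace 𝓘(ℝ, E) p) (zero_le_one (α := ℝ))
  obtain ⟨u, hu⟩ := hu
  obtain ⟨L, hL⟩ := exists_FrS hJ.os hu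
  obtain ⟨c0, hc0⟩ : ∃ c0, Pi (L (CoC.bE n 0)) c0 ≠ c0 := by
    by_contra hall
    push Not at hall
    have h1 : LinearMap.range (Pi (L (CoC.bE n 0)) : TangentSpace 𝓘(ℝ, E) p →ₗ[ℝ]
        TangentSpace 𝓘(ℝ, E) p) = ⊤ := by
      rw [eq_top_iff]
      intro v _
      exact ⟨v, hall v⟩
    have h2 := hJ.os.sp.rank _ (FrS.ne0 hJ.os hL)
    rw [h1, finrank_top] at h2
    have h3 : finrank ℝ (TangentSpace 𝓘(ℝ, E) p) = finrank ℝ E := rfl
    omega
  set v₀ : UT E M := W.mk (E := E) p u hu with hv₀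
  set κ : ℝ := a * ((2 * n + 1).factorial : ℝ) * sv (Em n) with hκ
  have hκ0 : κ ≠ 0 := mul_ne_zero (mul_ne_zero ha (by positivity))
    (sv_pos (by rw [finrank_euclideanSpace, Fintype.card_fin]; omega)).ne'
  have hGk : Form.IsDeg (2 * n + 2) (FF F hD hB hdiam hl hJ hρ a) :=
    FF_isDeg F hD hB hdiam hl hJ hρ a
  refine ⟨chtC hJ hL hc0 hT v₀, κ, ?_, ?_⟩
  · rw [FE.kap, hκ, sv, finrank_euclideanSpace_fin, mul_pow, mul_pow |a * _|, sq_abs]
  intro W hW hWc hWd hW1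
  set C := chtC (e := e) (D := D) hJ hL hc0 hT v₀ with hC
  set β := C.bmp (plotsCont_dC F D p) hW hWc with hβ
  set Fc := Form.pull id (map_dC F D p) (FF F hD hB hdiam hl hJ hρ a) with hFc
  have hFk : Form.IsDeg (2 * n + 1 + 1) Fc := hGk.pull _ _
  have hext : ∀ y, extd W y = 0 := by
    intro y
    have h1 : prt (2 * n + 2 + 1) (extd W y) = extd W y := by
      have h2 : HasFDerivAt (fun y => prt (2 * n + 2) (W y))
          (WA.prtL (2 * n + 2) ∘L fderiv ℝ W y) y :=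
        (WA.prtL (E := Em n) (2 * n + 2)).hasFDerivAt.comp y
          (hW.differentiable (by simp) y).hasFDerivAt
      have h3 : (fun y => prt (2 * n + 2) (W y)) = W := funext hWd
      rw [h3] at h2
      rw [extd, WA.prt_succ_dLin, ← h2.fderiv]
    rw [← h1]
    exact WA.prt_eq_zero (by rw [finrank_euclideanSpace_fin]; omega) _
  have hβd : β.d = 0 := bmp_d _ _ _ _ hext
  have hβk : Form.IsDeg (2 * n + 1 + 1) β := bmp_deg _ _ _ _ hWd
  obtain ⟨ψ, c₁, hψ⟩ := ang_Cut F hD hB hdiam hl hJ hρ a v₀ (by omega) ha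
  obtain ⟨c, γ, h1, -⟩ := (bun_Cut (e := e) (D := D) hJ v₀).base_cohom (CoC.bE n) (by omega) hψ
    (n₀ := finrank ℝ E - 1) (const_up F hD hB p (by omega)) (exact_up F hD hB p) (2 * n + 2)
    β (by omega) hβd hβk
  rw [Nat.div_self (by omega), pow_one, smul_smul] at h1
  -- the functional
  have h2 : LC v₀ L c0 β = 1 := by
    rw [hβ, LC_bmp hJ hL hc0 hT v₀ F hW hWc, hW1]
  have h3 : LC v₀ L c0 Fc = κ := LC_FF F hD hB hdiam hl hJ hρ a hL hc0 v₀
  have h4 : LC v₀ L c0 γ.d = 0 := LC_d hJ hL hc0 v₀ γ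
  have h5 : γ.d = β - (c * c₁) • Fc := by rw [h1]; abel
  have h6 : LC v₀ L c0 (β - (c * c₁) • Fc) = LC v₀ L c0 β - (c * c₁) * LC v₀ L c0 Fc := by
    rw [LC, LC, LC, ← integral_const_mul, ← integral_sub (integrable_LC hJ hL hc0 v₀ hβk)
      ((integrable_LC hJ hL hc0 v₀ hFk).const_mul _)]
    refine integral_congr_ae (Eventually.of_forall fun x => ?_)
    simp only
    rw [Form.sub_val, Form.smul_val, sub_eq_add_neg, Q.evalForm_add, ← neg_one_smul ℝ,
      Q.evalForm_smul, Q.evalForm_smul]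
    ring
  rw [← h5, h4, h2, h3] at h6
  have h7 : (c * c₁) * κ = 1 := by linarith
  refine ⟨-(κ • γ), ?_⟩
  have h8 : κ • β = Fc + κ • γ.d := by
    rw [h1, smul_add, smul_smul, mul_comm κ, h7, one_smul]
  rw [Form.d_neg, Form.d_smul, h8]
  abel

end Main

end

end Vale.Agent.P231.H230
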