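import Vale.Agent.P231.TW.Theta

/-!
# P231, stage 3, block K2 (2): the radial diffeomorphism from the unit ball onto the space
-/

set_option linter.unusedSectionVars false
set_option linter.unusedVariables false

open Module MeasureTheory Set Metric Filter
open scoped ContDiff Topology

namespace Vale.Agent.P231.H230

open Fm WA TW

noncomputable section

variable {F : Type*} [NormedAddCommGroup F] [InnerProductSpace ℝ F] [FiniteDimensional ℝ F]
  [MeasurableSpace F] [BorelSpace F]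

/-- the radial map from the unit ball onto the space -/
def rm (x : F) : F := (gg (‖x‖ ^ 2))⁻¹ • x

theorem hasDerivAt_gg {s : ℝ} (hs : s < 1) : HasDerivAt gg (-(gg s / (1 - s) ^ 2)) s := by
  have h0 : (1 : ℝ) - s ≠ 0 := by linarith
  have h1 : HasDerivAt (fun t : ℝ => -(1 - t)⁻¹) (-((1 - s) ^ 2)⁻¹) s := by
    have h2 : HasDerivAt (fun t : ℝ => 1 - t) (-1 : ℝ) s := (hasDerivAt_id s).const_sub 1
    exact (h2.fun_inv h0).fun_neg.congr_deriv (by field_simp)
  have h3 := h1.exp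
  have h4 : gg =ᶠ[𝓝 s] fun t => Real.exp (-(1 - t)⁻¹) := by
    filter_upwards [Iio_mem_nhds hs] with t ht
    have h5 : ¬ 1 - t ≤ 0 := not_le.2 (by linarith [mem_Iio.1 ht])
    rw [gg, expNegInvGlue, if_neg h5]
  have h5 : gg s = Real.exp (-(1 - s)⁻¹) := h4.self_of_nhds
  refine (h3.congr_of_eventuallyEq h4).congr_deriv ?_
  rw [h5]
  field_simp

theorem gg_anti {s t : ℝ} (h : s ≤ t) : gg t ≤ gg s :=
  expNegInvGlue.monotone (by linarith)

theorem gg_nonneg (s : ℝ) : 0 ≤ gg s := expNegInvGlue.nonneg _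

theorem sq_lt_one {x : F} (hx : ‖x‖ < 1) : ‖x‖ ^ 2 < 1 := by
  nlinarith [norm_nonneg x]

theorem gg_ball_pos {x : F} (hx : ‖x‖ < 1) : 0 < gg (‖x‖ ^ 2) := gg_pos (sq_lt_one hx)

theorem contDiff_ggn : ContDiff ℝ ∞ fun x : F => gg (‖x‖ ^ 2) :=
  contDiff_gg.comp (contDiff_norm_sq ℝ)

theorem cd_rm {x : F} (hx : ‖x‖ < 1) : ContDiffAt ℝ ∞ (rm : F → F) x :=
  (contDiff_ggn.contDiffAt.inv (gg_ball_pos hx).ne').smul contDiffAt_id

theorem rm_smul {x : F} (hx : ‖x‖ < 1) : gg (‖x‖ ^ 2) • rm x = x := by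
  rw [rm, smul_smul, mul_inv_cancel₀ (gg_ball_pos hx).ne', one_smul]

theorem rm_inj : InjOn (rm : F → F) (ball 0 1) := by
  intro x hx y hy hxy
  rw [mem_ball_zero_iff] at hx hy
  have key : ∀ x y : F, ‖x‖ < 1 → ‖y‖ < 1 → rm x = rm y → ‖x‖ ≤ ‖y‖ := by
    intro x y hx hy hxy
    by_contra h
    rw [not_le] at h
    have h1 : gg (‖x‖ ^ 2) ≤ gg (‖y‖ ^ 2) := gg_anti (by nlinarith [norm_nonneg x, norm_nonneg y])
    have h2 : ‖x‖ = gg (‖x‖ ^ 2) * ‖rm x‖ := by
      conv_lhs => rw [← rm_smul hx]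
      rw [norm_smul, Real.norm_eq_abs, abs_of_pos (gg_ball_pos hx)]
    have h3 : ‖y‖ = gg (‖y‖ ^ 2) * ‖rm y‖ := by
      conv_lhs => rw [← rm_smul hy]
      rw [norm_smul, Real.norm_eq_abs, abs_of_pos (gg_ball_pos hy)]
    rw [h2, h3, hxy] at h
    exact absurd (mul_le_mul_of_nonneg_right h1 (norm_nonneg (rm y))) (not_le.2 h)
  have hn : ‖x‖ = ‖y‖ := le_antisymm (key x y hx hy hxy) (key y x hy hx hxy.symm)
  rw [← rm_smul hx, hxy, hn, rm_smul hy]

theorem rm_surj : (rm : F → F) '' ball 0 1 = univ := by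
  refine eq_univ_of_forall fun y => ?_
  have hc : Continuous fun r : ℝ => r - ‖y‖ * gg (r ^ 2) :=
    continuous_id.sub (continuous_const.mul (contDiff_gg.continuous.comp (continuous_pow 2)))
  have h0 : (0 : ℝ) - ‖y‖ * gg (0 ^ 2) ≤ 0 := by
    have := mul_nonneg (norm_nonneg y) (gg_nonneg (0 ^ 2))
    linarith
  have h1 : (0 : ℝ) ≤ 1 - ‖y‖ * gg (1 ^ 2) := by
    rw [one_pow, gg_zero le_rfl, mul_zero, sub_zero]
    exact zero_le_one
  obtain ⟨r, hr, hr0⟩ := intermediate_value_Icc zero_le_one hc.continuousOn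
    (show (0 : ℝ) ∈ Icc _ _ from ⟨h0, h1⟩)
  simp only at hr0
  have hr1 : r < 1 := by
    refine lt_of_le_of_ne hr.2 ?_
    rintro rfl
    rw [one_pow, gg_zero le_rfl, mul_zero, sub_zero] at hr0
    exact one_ne_zero hr0
  have hr2 : r ^ 2 < 1 := by nlinarith [hr.1]
  have hg := gg_pos hr2
  have hn : ‖gg (r ^ 2) • y‖ = r := by
    rw [norm_smul, Real.norm_eq_abs, abs_of_pos hg]
    linarith
  refine ⟨gg (r ^ 2) • y, ?_, ?_⟩
  · rw [mem_ball_zero_iff, hn]
    exact hr1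
  · rw [rm, hn, smul_smul, inv_mul_cancel₀ hg.ne', one_smul]

theorem rm_fderiv_inj {x v : F} (hx : ‖x‖ < 1) (hv : fderiv ℝ (rm : F → F) x v = 0) : v = 0 := by
  have hg := gg_ball_pos hx
  set s : ℝ := ‖x‖ ^ 2 with hs
  have hs1 : s < 1 := sq_lt_one hx
  have h1 : HasFDerivAt (rm : F → F) (fderiv ℝ rm x) x :=
    ((cd_rm hx).differentiableAt (by simp)).hasFDerivAt
  have h2 : HasFDerivAt (fun x : F => gg (‖x‖ ^ 2))
      ((-(gg s / (1 - s) ^ 2)) • (2 • innerSL ℝ x : F →L[ℝ] ℝ)) x :=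
    (hasDerivAt_gg hs1).comp_hasFDerivAt (f := fun x : F => ‖x‖ ^ 2) x
      (hasStrictFDerivAt_norm_sq x).hasFDerivAt
  have h3 := h2.smul h1
  have h4 : (fun x : F => gg (‖x‖ ^ 2) • rm x) =ᶠ[𝓝 x] id := by
    filter_upwards [(isOpen_lt continuous_norm continuous_const).mem_nhds hx] with y hy
    exact rm_smul hy
  have h5 := (h3.congr_of_eventuallyEq h4.symm).unique (hasFDerivAt_id x)
  have h6 := congrArg (fun A : F →L[ℝ] F => A v) h5
  simp only [add_apply, smul_apply, hv, smul_zero, zero_add, ContinuousLinearMap.smulRight_apply,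
    innerSL_apply_apply, ContinuousLinearMap.id_apply, smul_eq_mul, nsmul_eq_mul,
    Nat.cast_ofNat] at h6
  -- `v = c • rm x`
  set c : ℝ := -(gg s / (1 - s) ^ 2) * (2 * inner ℝ x v) with hc
  have h7 : v = c • rm x := h6.symm
  have h8 : v = (c * (gg s)⁻¹) • x := by
    rw [h7, rm, smul_smul]
  have h9 : inner ℝ x v = c * (gg s)⁻¹ * s := by
    conv_lhs => rw [h8]
    rw [inner_smul_right, real_inner_self_eq_norm_sq]
  have h10 : c = 0 := by
    have e1 : (0 : ℝ) < (1 - s) ^ 2 := by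
      have : 1 - s ≠ 0 := by linarith
      positivity
    have e2 : c = -(2 * s / (1 - s) ^ 2) * c := by
      conv_lhs => rw [hc, h9]
      field_simp
    have e3 : 0 ≤ s := by positivity
    have e4 : 0 ≤ 2 * s / (1 - s) ^ 2 := by positivity
    have e5 : (1 + 2 * s / (1 - s) ^ 2) * c = 0 := by linarith
    exact (mul_eq_zero.1 e5).resolve_left (by positivity)
  rw [h8, h10, zero_mul, zero_smul]

theorem det_ne {x : F} (hx : ‖x‖ < 1) : (fderiv ℝ (rm : F → F) x).det ≠ 0 := by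
  have h1 : LinearMap.ker (fderiv ℝ (rm : F → F) x : F →ₗ[ℝ] F) = ⊥ := by
    rw [LinearMap.ker_eq_bot']
    intro v hv
    exact rm_fderiv_inj hx hv
  have h2 := (LinearMap.isUnit_iff_ker_eq_bot _).2 h1
  exact (LinearMap.isUnit_det _ h2).ne_zero

theorem det_pos {x : F} (hx : ‖x‖ < 1) : 0 < (fderiv ℝ (rm : F → F) x).det := by
  have hcont : ContinuousOn (fun x : F => (fderiv ℝ (rm : F → F) x).det) (ball 0 1) := by
    have h1 : ContDiffOn ℝ ∞ (rm : F → F) (ball 0 1) := fun y hy =>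
      (cd_rm (mem_ball_zero_iff.1 hy)).contDiffWithinAt
    exact ContinuousLinearMap.continuous_det.comp_continuousOn
      (h1.continuousOn_fderiv_of_isOpen isOpen_ball (by simp))
  have h0 : 0 < (fderiv ℝ (rm : F → F) 0).det := by
    have hg : 0 < gg ((0 : ℝ) ^ 2) := gg_pos (by norm_num)
    have h1 : HasFDerivAt (fun x : F => (gg (‖x‖ ^ 2))⁻¹ • x)
        ((gg ((0 : ℝ) ^ 2))⁻¹ • ContinuousLinearMap.id ℝ F) 0 := by
      have h2 : DifferentiableAt ℝ (fun x : F => (gg (‖x‖ ^ 2))⁻¹) 0 :=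
        (contDiff_ggn.contDiffAt.inv (by rw [norm_zero]; exact hg.ne')).differentiableAt
          (by simp : (∞ : WithTop ℕ∞) ≠ 0)
      have h3 := h2.hasFDerivAt.smul (hasFDerivAt_id (0 : F))
      refine h3.congr_fderiv ?_
      ext v
      simp
    have h2 : fderiv ℝ (rm : F → F) 0 = (gg ((0 : ℝ) ^ 2))⁻¹ • ContinuousLinearMap.id ℝ F :=
      h1.fderiv
    rw [h2, ContinuousLinearMap.det]
    have h3 : (((gg ((0 : ℝ) ^ 2))⁻¹ • ContinuousLinearMap.id ℝ F : F →L[ℝ] F) : F →ₗ[ℝ] F) =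
        (gg ((0 : ℝ) ^ 2))⁻¹ • LinearMap.id := rfl
    rw [h3, LinearMap.det_smul, LinearMap.det_id, mul_one]
    positivity
  by_contra hneg
  have h1 : (fderiv ℝ (rm : F → F) x).det < 0 := lt_of_le_of_ne (not_lt.1 hneg) (det_ne hx)
  have hpre : IsPreconnected (ball (0 : F) 1) := (convex_ball 0 1).isPreconnected
  obtain ⟨y, hy, hy0⟩ := hpre.intermediate_value (mem_ball_zero_iff.2 hx)
    (mem_ball_self one_pos) hcont (show (0 : ℝ) ∈ Icc _ _ from ⟨h1.le, h0.le⟩)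
  exact det_ne (mem_ball_zero_iff.1 hy) hy0

/-- **the change of variables** -/
theorem integral_rm (μ : Measure F) [μ.IsAddHaarMeasure] {N : ℕ} (b : Basis (Fin N) ℝ F)
    (W : F → Lam F) :
    ∫ x in ball (0 : F) 1, evalForm (pb rm W x) b ∂μ = ∫ y, evalForm (W y) b ∂μ := by
  have h1 := integral_image_eq_integral_abs_det_fderiv_smul μ (s := ball (0 : F) 1)
    (f := rm) (f' := fderiv ℝ rm) measurableSet_ball
    (fun x hx => ((cd_rm (mem_ball_zero_iff.1 hx)).differentiableAt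
      (by simp)).hasFDerivAt.hasFDerivWithinAt) rm_inj (fun y => evalForm (W y) b)
  rw [rm_surj, setIntegral_univ] at h1
  rw [h1]
  refine setIntegral_congr_fun measurableSet_ball fun x hx => ?_
  change evalForm (pull _ _) b = _
  rw [evalForm_pull_det, abs_of_pos (det_pos (mem_ball_zero_iff.1 hx))]
  rfl

end

end Vale.Agent.P231.H230
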