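import Vale.Agent.P231.H230.Sol
import Vale.Agent.P231.H230.RadM
import Vale.Agent.P231.TH.Sph8
import Vale.Agent.P231.S3I.Cht
import Vale.Agent.P231.Co.Gen

/-!
# P231, stage 3, block K2 (3): the chart of the cut locus and the class of `F` on it, two leaves
-/

set_option maxSynthPendingDepth 3
set_option linter.unusedSectionVars false
set_option linter.unusedVariables false

open Bundle Manifold Set Filter Module MeasureTheory Metric
open scoped ContDiff Manifold Topology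

namespace Vale.Agent.P231.H230

noncomputable section

open Vale.Agent.P234 Vale.Agent.P231 Vale.Agent.P231.Fm Vale.Agent.P231.W Vale.Agent.P231.H775
open Vale.Agent.P231.WE Vale.Agent.P231.FE Vale.Agent.P231.CoC
open Vale.Agent.P231.S2I (chF cut_chF contDiff_chF sint sint_eq sint_eq_cut dP at_id integrable_dR
  map_rad')
open Vale.Agent.P231.TW (gg gg_pos gg_zero)
open Vale.Agent.P231.WA (prt evalForm_prt)

variable {E : Type*} [NormedAddCommGroup E] [NormedSpace ℝ E] [FiniteDimensional ℝ E]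
  {M : Type*} [MetricSpace M] [ChartedSpace E M] [IsManifold 𝓘(ℝ, E) ∞ M]
  [RiemannianBundle (fun x : M => TangentSpace 𝓘(ℝ, E) x)]
  [IsContMDiffRiemannianBundle 𝓘(ℝ, E) ∞ E (fun x : M => TangentSpace 𝓘(ℝ, E) x)]
  {e : ∀ x : M, TangentSpace 𝓘(ℝ, E) x → M}
  [CompactSpace M] [ConnectedSpace M] [IsRiemannianManifold 𝓘(ℝ, E) M]

section Chart

variable (e) (D : ℝ) {p : M} {n : ℕ}
  (Pi : TangentSpace 𝓘(ℝ, E) p → TangentSpace 𝓘(ℝ, E) p →L[ℝ] TangentSpace 𝓘(ℝ, E) p)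
  (L : Em n →L[ℝ] TangentSpace 𝓘(ℝ, E) p) (c0 : TangentSpace 𝓘(ℝ, E) p)

/-- the parametrisation of the cut locus -/
def cC (x : Em n) : M := e p (D • rad (c0 + L x))

open Classical in
/-- the chart of the cut locus -/
def fC (y : M) : Em n :=
  if h : ∃ z : TangentSpace 𝓘(ℝ, E) p, ‖z‖ = 1 ∧ e p (D • z) = y then Sol Pi L c0 h.choose else 0

/-- the domain of the chart -/
def UC : Set M := {y | ∃ z : TangentSpace 𝓘(ℝ, E) p, ‖z‖ = 1 ∧ e p (D • z) = y ∧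
  Pi (L (bE n 0)) z ≠ z}

end Chart

section

variable {D : ℝ} {p : M} {n : ℕ}
  {Pi : TangentSpace 𝓘(ℝ, E) p → TangentSpace 𝓘(ℝ, E) p →L[ℝ] TangentSpace 𝓘(ℝ, E) p}
  {o : TangentSpace 𝓘(ℝ, E) p → Fm.Lam (TangentSpace 𝓘(ℝ, E) p)}
  {L : Em n →L[ℝ] TangentSpace 𝓘(ℝ, E) p} {c0 : TangentSpace 𝓘(ℝ, E) p}
  (hJ : LineP e D p n Pi o) (hL : L ∈ FrS n Pi o) (hc0 : Pi (L (bE n 0)) c0 ≠ c0)

theorem Sol_congr {z z' : TangentSpace 𝓘(ℝ, E) p} (h : Pi z = Pi z') :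
    Sol Pi L c0 z = Sol Pi L c0 z' := by
  rw [Sol, Sol, AA, AA, h]

include hJ in
theorem fC_eq {z : TangentSpace 𝓘(ℝ, E) p} (hz : ‖z‖ = 1) :
    fC e D Pi L c0 (e p (D • z)) = Sol Pi L c0 z := by
  have h : ∃ z' : TangentSpace 𝓘(ℝ, E) p, ‖z'‖ = 1 ∧ e p (D • z') = e p (D • z) := ⟨z, hz, rfl⟩
  rw [fC, dif_pos h]
  obtain ⟨h1, h2⟩ := h.choose_spec
  have h3 := (hJ.cut _ _ h1 hz).1 h2
  exact (Sol_congr (hJ.os.sp.rel _ _ (ne_zero_of_nm h1) (ne_zero_of_nm hz) h3)).symm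

include hJ hL in
theorem mem_UC {z : TangentSpace 𝓘(ℝ, E) p} (hz : ‖z‖ = 1) :
    e p (D • z) ∈ UC e D Pi L ↔ Pi (L (bE n 0)) z ≠ z := by
  constructor
  · rintro ⟨z', h1, h2, h3⟩ h4
    apply h3
    have h5 := (hJ.cut _ _ h1 hz).1 h2
    have e1 : Pi z = Pi z' := hJ.os.sp.rel _ _ (ne_zero_of_nm h1) (ne_zero_of_nm hz) h5
    have e2 : Pi z = Pi (L (bE n 0)) :=
      hJ.os.sp.rel _ _ (FrS.ne0 hJ.os hL) (ne_zero_of_nm hz) h4
    rw [← e2, e1]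
    exact hJ.os.sp.self _ (ne_zero_of_nm h1)
  · intro h
    exact ⟨z, hz, rfl, h⟩

include hJ hL in
theorem hL0 (ξ : Em n) : Pi (L (bE n 0)) (L ξ) = L ξ := FrS.fix hJ.os hL ξ

/-- `e p (D • rad z)` -/
theorem nrm_rad' {z : TangentSpace 𝓘(ℝ, E) p} (hz : z ≠ 0) : ‖rad z‖ = 1 := nm_rad hz

theorem Pi_rad {m : ℕ} (h : Spread m Pi) {z : TangentSpace 𝓘(ℝ, E) p} (hz : z ≠ 0) :
    Pi (rad z) = Pi z := by
  refine h.rel _ _ hz (ne_zero_of_nm (nrm_rad' hz)) ?_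
  rw [rad, map_smul, h.self _ hz]

theorem Pi_rad_ne {z u : TangentSpace 𝓘(ℝ, E) p} (hz : z ≠ 0) (h : Pi u z ≠ z) :
    Pi u (rad z) ≠ rad z := by
  intro h1
  apply h
  rw [rad, map_smul] at h1
  exact smul_right_injective _ (inv_ne_zero (norm_ne_zero_iff.2 hz)) h1

include hJ hL hc0 in
theorem cC_mem (x : Em n) : cC e D L c0 x ∈ UC e D Pi L := by
  have h1 : c0 + L x ≠ 0 := aff_ne_zero (hL0 hJ hL) hc0 x
  exact (mem_UC hJ hL (nrm_rad' h1)).2 (Pi_rad_ne h1 (aff_ne (hL0 hJ hL) hc0 x))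

include hJ hL hc0 in
theorem fC_cC (x : Em n) : fC e D Pi L c0 (cC e D L c0 x) = x := by
  have h1 : c0 + L x ≠ 0 := aff_ne_zero (hL0 hJ hL) hc0 x
  rw [cC, fC_eq hJ (nrm_rad' h1), Sol_congr (Pi_rad hJ.os.sp h1)]
  exact Sol_aff hJ.os.sp hL.1 (FrS.ne0 hJ.os hL) (hL0 hJ hL) hc0 x

variable (hT : finrank ℝ E = 2 * (2 * n + 2))

include hJ hL hc0 hT in
theorem cC_fC {y : M} (hy : y ∈ UC e D Pi L) : cC e D L c0 (fC e D Pi L c0 y) = y := by
  obtain ⟨z, h1, h2, h3⟩ := hy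
  rw [← h2, fC_eq hJ h1, cC]
  have hz0 : z ≠ 0 := ne_zero_of_nm h1
  have k1 := Sol_spec (c0 := c0) hJ.os.sp hL.1 (FrS.ne0 hJ.os hL) (hL0 hJ hL) hT hz0 h3
  have k2 : c0 + L (Sol Pi L c0 z) ≠ 0 := aff_ne_zero (hL0 hJ hL) hc0 _
  refine ((hJ.cut _ _ h1 (nrm_rad' k2)).2 ?_).symm
  rw [rad, map_smul, k1]

/-- lifts of the plots of the cut locus -/
theorem exists_lift {V : Type} [NormedAddCommGroup V] [NormedSpace ℝ V] [FiniteDimensional ℝ V]
    {u : V → M} {x : V} (hu : (dC e D p).At u x) :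
    ∃ z : V → TangentSpace 𝓘(ℝ, E) p, Sm z x ∧ (∀ᶠ y in 𝓝 x, ‖z y‖ = 1) ∧
      ∀ᶠ y in 𝓝 x, u y = e p (D • z y) := by
  obtain ⟨w, hw1, hw2⟩ := hu
  have h2 : ∀ᶠ y in 𝓝 x, foot (w y) = p := hw2.2
  refine ⟨fun y => vp p (w y), sm_vecp hw2, h2.mono fun y hy => norm_vp hy, ?_⟩
  filter_upwards [h2, hw1] with y k2 k1
  exact k1.symm.trans (bar_vp (e := e) (D := D) k2)

include hJ hL in
theorem isO_UC : Co.IsO (dC e D p) (UC e D Pi L) where
  out {V} _ _ _ {u x} hu hx := by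
    obtain ⟨z, h1, h2, h3⟩ := exists_lift hu
    have hx' : Pi (L (bE n 0)) (z x) ≠ z x := by
      rw [h3.self_of_nhds] at hx
      exact (mem_UC hJ hL h2.self_of_nhds).1 hx
    have hc : ContinuousAt z x := h1.self_of_nhds.continuousAt
    have h4 : ∀ᶠ y in 𝓝 x, Pi (L (bE n 0)) (z y) - z y ≠ 0 :=
      (((Pi (L (bE n 0))).continuous.continuousAt.comp hc).sub hc).eventually_ne
        (sub_ne_zero.2 hx')
    filter_upwards [h2, h3, h4] with y k2 k3 k4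
    rw [k3]
    exact (mem_UC hJ hL k2).2 (sub_ne_zero.1 k4)

include hJ hL in
theorem map_fC : ((dC e D p).on (UC e D Pi L)).Map (Dif.lin (Em n)) (fC e D Pi L c0) := by
  intro V _ _ _ u x hu
  obtain ⟨z, h1, h2, h3⟩ := exists_lift hu.1
  have h5 : ∀ᶠ y in 𝓝 x, u y ∈ UC e D Pi L := hu.2
  have h6 : ∀ᶠ y in 𝓝 x, fC e D Pi L c0 (u y) = Sol Pi L c0 (z y) := by
    filter_upwards [h2, h3] with y k2 k3
    rw [k3, fC_eq hJ k2]
  change Sm _ x
  filter_upwards [h1, h2, h3, h5, eventually_eventually_nhds.2 h6] with y k1 k2 k3 k5 k6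
  have k7 : Pi (L (bE n 0)) (z y) ≠ z y := by
    rw [k3] at k5
    exact (mem_UC hJ hL k2).1 k5
  have k8 : ContDiffAt ℝ ∞ (fun y => Sol Pi L c0 (z y)) y :=
    (cd_Sol hJ.os.sp hL.1 (FrS.ne0 hJ.os hL) (hL0 hJ hL) (ne_zero_of_nm k2) k7).comp y k1
  exact k8.congr_of_eventuallyEq k6

/-- the directions of the radial family -/
def ZZ (L : Em n →L[ℝ] TangentSpace 𝓘(ℝ, E) p) (c0 : TangentSpace 𝓘(ℝ, E) p) (x : Em n) :
    TangentSpace 𝓘(ℝ, E) p := (gg (‖x‖ ^ 2) : ℝ) • c0 + L x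

theorem cd_ZZ (x : Em n) : ContDiffAt ℝ ∞ (ZZ L c0) x :=
  (contDiff_ggn.contDiffAt.smul contDiffAt_const).add L.contDiff.contDiffAt

theorem ZZ_out {x : Em n} (hx : 1 ≤ ‖x‖) : ZZ L c0 x = L x := by
  rw [ZZ, gg_zero (one_le_pow₀ hx), zero_smul, zero_add]

include hJ hL hc0 in
theorem ZZ_ne (x : Em n) : ZZ L c0 x ≠ 0 := by
  rcases lt_or_ge ‖x‖ 1 with hx | hx
  · intro h0
    exact smul_aff_ne (hL0 hJ hL) hc0 (gg_ball_pos hx).ne' x (by
      change Pi (L (bE n 0)) (ZZ L c0 x) = ZZ L c0 x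
      rw [h0, map_zero])
  · rw [ZZ_out hx]
    intro h0
    have h1 := hL.1 x
    rw [h0, norm_zero] at h1
    linarith

/-- the radial family of unit vectors -/
def UZ (v₀ : UT E M) (L : Em n →L[ℝ] TangentSpace 𝓘(ℝ, E) p) (c0 : TangentSpace 𝓘(ℝ, E) p)
    (x : Em n) : UT E M := mkp p v₀ (rad (ZZ L c0 x))

variable (e D) in
/-- the radial family of points of the cut locus -/
def CS (v₀ : UT E M) (L : Em n →L[ℝ] TangentSpace 𝓘(ℝ, E) p) (c0 : TangentSpace 𝓘(ℝ, E) p)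
    (x : Em n) : M := bar e D (UZ v₀ L c0 x)

variable (v₀ : UT E M)

include hJ hL hc0 in
theorem map_UZ : (Dif.lin (Em n)).Map ((dUT E M).on (up p)) (UZ v₀ L c0) := by
  intro V _ _ _ u x hu
  have h1 : Sm u x := hu
  refine at_mkp (f := fun y => rad (ZZ L c0 (u y))) ?_ ?_
  · filter_upwards [h1] with y k1
    exact (cd_rad (ZZ_ne hJ hL hc0 _)).comp y ((cd_ZZ _).comp y k1)
  · exact Eventually.of_forall fun y => nrm_rad' (ZZ_ne hJ hL hc0 _)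

include hJ hL hc0 in
theorem map_CS : (Dif.lin (Em n)).Map (dC e D p) (CS e D v₀ L c0) := fun hu =>
  (Dif.map_quot : ((dUT E M).on (up p)).Map (dC e D p) (bar e D)) (map_UZ hJ hL hc0 v₀ hu)

include hJ hL hc0 in
theorem CS_eq (x : Em n) : CS e D v₀ L c0 x = e p (D • rad (ZZ L c0 x)) :=
  bar_mkp (nrm_rad' (ZZ_ne hJ hL hc0 x))

include hJ hL hc0 in
theorem CS_in {x : Em n} (hx : ‖x‖ < 1) :
    CS e D v₀ L c0 x ∈ UC e D Pi L ∧ fC e D Pi L c0 (CS e D v₀ L c0 x) = rm x := by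
  have h0 := ZZ_ne hJ hL hc0 x
  have hg := (gg_ball_pos hx).ne'
  rw [CS_eq hJ hL hc0 v₀ x]
  constructor
  · exact (mem_UC hJ hL (nrm_rad' h0)).2 (Pi_rad_ne h0 (smul_aff_ne (hL0 hJ hL) hc0 hg x))
  · rw [fC_eq hJ (nrm_rad' h0), Sol_congr (Pi_rad hJ.os.sp h0)]
    exact Sol_smul_aff hJ.os.sp hL.1 (FrS.ne0 hJ.os hL) (hL0 hJ hL) hc0 hg x

include hL in
theorem rad_L (x : Em n) : rad (L x) = L (rad x) := by
  rw [rad, rad, map_smul, hL.1]

include hJ hL hc0 in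
theorem CS_out {x : Em n} (hx : 1 ≤ ‖x‖) : CS e D v₀ L c0 x = TH.qS e D L := by
  have hx0 : x ≠ 0 := by
    rintro rfl
    rw [norm_zero] at hx
    linarith
  rw [CS_eq hJ hL hc0 v₀ x, ZZ_out hx, rad_L hL, TH.exp_rad hJ hL hx0]

include hJ hL in
theorem qS_not_mem : TH.qS e D L ∉ UC e D Pi L := by
  intro h
  exact (mem_UC hJ hL (FrS.norm0 hJ.os hL)).1 h (FrS.fix hJ.os hL _)

/-- the functional -/
def LC (v₀ : UT E M) (L : Em n →L[ℝ] TangentSpace 𝓘(ℝ, E) p) (c0 : TangentSpace 𝓘(ℝ, E) p)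
    (w : Form (dC e D p)) : ℝ := ∫ x, evalForm (w.val (CS e D v₀ L c0) x) (CoC.bE n)

include hJ hL hc0 in
theorem LC_d (w : Form (dC e D p)) : LC v₀ L c0 w.d = 0 := by
  set μ : Form (dC e D p) := Form.part (2 * n + 1) w with hμ
  have hμd : Form.IsDeg (2 * n + 1) μ := Form.isDeg_part _ _
  have h1 : μ.d = Form.part (2 * n + 1 + 1) w.d := (Form.part_succ_d _ _).symm
  set B : Form (Dif.lin (Em n)) := Form.pull (CS e D v₀ L c0) (map_CS hJ hL hc0 v₀) μ with hB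
  have hid : ∀ x : Em n, (Dif.lin (Em n)).At (id : Em n → Em n) x := fun x =>
    Sm.of_contDiff contDiff_id x
  have h2 : ∀ x, evalForm (w.d.val (CS e D v₀ L c0) x) (CoC.bE n) =
      evalForm (B.d.val id x) (CoC.bE n) := by
    intro x
    have h3 : B.d.val id x = prt (2 * n + 1 + 1) (w.d.val (CS e D v₀ L c0) x) := by
      rw [hB, ← Form.pull_d, Form.pull_val _ _ (hid x), h1, Form.part_val]
      rfl
    rw [h3, evalForm_prt]
  rw [LC]
  simp only [h2]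
  rw [TH.integral_ball (k := 2 * n + 1) (CoC.bE n) (b0 := (0 : Form (dP (Em n)))) Form.d_zero ?_]
  · rw [sint_eq_cut (CoC.bE n) Form.d_zero cut_chF]
    simp only [Form.zero_val, mul_zero, Q.evalForm_zero, integral_zero]
  · intro x hx
    rw [Form.zero_val, hB, Form.pull_val _ _ (hid x)]
    refine TH.val_const hμd (map_CS hJ hL hc0 v₀ (hid x)) (c := TH.qS e D L) ?_
    filter_upwards [(isOpen_lt continuous_const continuous_norm).mem_nhds hx] with y hy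
    exact CS_out hJ hL hc0 v₀ (le_of_lt hy)

end

section Main

variable (F : Facts e) {D : ℝ} (hD : 0 < D) (hB : InjGE e D)
    (hdiam : ∀ p q : M, dist p q ≤ D) {p : M} {n : ℕ}
    (hl : ∀ x y : M, dist x y = D → finrank ℝ (Pl e D x y) = 2 * n + 2)
  {Pi : TangentSpace 𝓘(ℝ, E) p → TangentSpace 𝓘(ℝ, E) p →L[ℝ] TangentSpace 𝓘(ℝ, E) p}
  {o : TangentSpace 𝓘(ℝ, E) p → Fm.Lam (TangentSpace 𝓘(ℝ, E) p)}
  {ρ : TangentSpace 𝓘(ℝ, E) p → ℝ} {r₀ : ℝ}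
    (hJ : LineP e D p n Pi o) (hρ : Rho e D p ρ r₀) (a : ℝ)
  {L : Em n →L[ℝ] TangentSpace 𝓘(ℝ, E) p} (hL : L ∈ FrS n Pi o)
  {c0 : TangentSpace 𝓘(ℝ, E) p} (hc0 : Pi (L (CoC.bE n 0)) c0 ≠ c0) (v₀ : UT E M)

include hL hc0 in
/-- **the value of the functional on `F`** -/
theorem LC_FF : LC v₀ L c0 (Form.pull id (map_dC F D p) (FF F hD hB hdiam hl hJ hρ a)) =
    a * ((2 * n + 1).factorial : ℝ) * sv (Em n) := by
  set G := FF F hD hB hdiam hl hJ hρ a with hG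
  have hGd : G.d = 0 := FF_d F hD hB hdiam hl hJ hρ a
  have hGk : Form.IsDeg (2 * n + 1 + 1) G := FF_isDeg F hD hB hdiam hl hJ hρ a
  set σ : Form ((dUT E M).on (up p)) := Form.res (up p) (WR.B0 F D G) with hσ
  have hσd := res_B0_d F D p hGd hGk
  set B : Form (Dif.lin (Em n)) := Form.pull (UZ v₀ L c0) (map_UZ hJ hL hc0 v₀) σ with hBd
  have hid : ∀ x : Em n, (Dif.lin (Em n)).At (id : Em n → Em n) x := fun x =>
    Sm.of_contDiff contDiff_id x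
  have h2 : ∀ x, (Form.pull id (map_dC F D p) G).val (CS e D v₀ L c0) x = B.d.val id x := by
    intro x
    rw [hBd, ← Form.pull_d, Form.pull_val _ _ (hid x), hσ, hσd]
    exact (Form.pull_val _ _ (map_UZ hJ hL hc0 v₀ (hid x))).symm
  rw [LC]
  simp only [h2]
  rw [TH.integral_ball (k := 2 * n + 1) (CoC.bE n) (TH.b0S_d F hD hB hdiam hl hJ hρ a hL v₀)
    ?_]
  · refine sint_solid (CoC.bE n) (by omega) fun y hy => ?_
    rw [TH.b0S_rad, TH.b0S, Form.pull_val _ _ (at_id hy)]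
    exact B0_frame F hD hB hdiam hl hJ hρ a v₀ hL hy (Eventually.of_forall fun z => rfl)
  · intro x hx
    have hx0 : x ≠ 0 := by
      rintro rfl
      rw [norm_zero] at hx
      linarith
    rw [TH.b0S, Form.pull_val _ _ (at_id hx0), hBd, Form.pull_val _ _ (hid x)]
    refine (Form.res_val _ (map_UZ hJ hL hc0 v₀ (hid x))).trans ?_
    refine (WR.B0 F D G).congr (map_UZ hJ hL hc0 v₀ (hid x)).1 ?_
    filter_upwards [(isOpen_lt continuous_const continuous_norm).mem_nhds hx] with y hy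
    change mkp p v₀ (rad (ZZ L c0 y)) = mkp p v₀ (L (rad y))
    rw [ZZ_out (le_of_lt hy), rad_L hL]

end Main

end

end Vale.Agent.P231.H230
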