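import Vale.Agent.P231.S3I.IntM
import Vale.Agent.P231.S3M2.Box

/-!
# P231, stage 3, integrality (H230): the integer `m` when the base point is missed
-/

set_option maxSynthPendingDepth 3
set_option linter.unusedSectionVars false
set_option linter.unusedVariables false

open Bundle Manifold Set Filter Module MeasureTheory
open scoped ContDiff Manifold Topology

namespace Vale.Agent.P231.H230

noncomputable section

open Vale.Agent.P234 Vale.Agent.P231 Vale.Agent.P231.Fm Vale.Agent.P231.W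
open Vale.Agent.P231.H775 Vale.Agent.P231.CoC Vale.Agent.P231.H584 Vale.Agent.P231.FE Vale.Agent.P231.WF Vale.Agent.P231.WE
open Vale.Agent.P231.Fm.Form (IsDeg)

variable {E : Type*} [NormedAddCommGroup E] [NormedSpace ℝ E] [FiniteDimensional ℝ E]
  {M : Type*} [MetricSpace M] [ChartedSpace E M] [IsManifold 𝓘(ℝ, E) ∞ M]
  [RiemannianBundle (fun x : M => TangentSpace 𝓘(ℝ, E) x)]
  [IsContMDiffRiemannianBundle 𝓘(ℝ, E) ∞ E (fun x : M => TangentSpace 𝓘(ℝ, E) x)]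
  [CompactSpace M] [ConnectedSpace M] [IsRiemannianManifold 𝓘(ℝ, E) M]
  {e : ∀ x : M, TangentSpace 𝓘(ℝ, E) x → M}

/-- **the integer `m`**: the fibre integral of `b₁ G₁` on the box of dimension `2 n + 2`, if the
base point `p` of the form `F` is missed -/
theorem int_m_miss (F : Facts e) {D : ℝ} (hD : 0 < D) (hB : InjGE e D)
    (hdiam : ∀ p q : M, dist p q ≤ D) {n : ℕ}
    (hl : ∀ x y : M, dist x y = D → finrank ℝ (Pl e D x y) = 2 * n + 2)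
    (hE : finrank ℝ E = 2 * (2 * n + 2)) {p : M}
    {Pi : TangentSpace 𝓘(ℝ, E) p → TangentSpace 𝓘(ℝ, E) p →L[ℝ] TangentSpace 𝓘(ℝ, E) p}
    {o : TangentSpace 𝓘(ℝ, E) p → Fm.Lam (TangentSpace 𝓘(ℝ, E) p)}
    {ρ : TangentSpace 𝓘(ℝ, E) p → ℝ} {r₀ : ℝ}
    (hJ : LineP e D p n Pi o) (hρ : Rho e D p ρ r₀) (a : ℝ)
    {B U : Type*} {dB : Dif B} {dU : Dif U} {c : ℝ} (S : Sys dB dU (dM E M) 1 D c)
    (hF : S.F = FF F hD hB hdiam hl hJ hρ a)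
    (hP : S.PP) (hFd : IsDeg 8 S.F) {ε : ℝ} (hε : ε ^ 2 = 1) {l : Form dB}
    (hb : S.b1 = ε • S.b0 + l.d) (hk : S.k ^ 2 = 4 * FE.kap n a ^ 2) {u : Form dU}
    (hu : Eqv S.hφ.map (Form.pull S.pi S.hpi u) ((1 / 2 : ℝ) • (S.G1 + S.G2)))
    {B4 : Bt dU} {BL : Bt dB} (hBL : BL.Good S.hφ) (hN : BL.N = 2 * n + 2)
    (hL : ∀ w : Form dU, B4.L w = BL.L (Form.pull S.pi S.hpi w))
    (hp₁ : ∀ y, S.g (BL.G y, 1) ≠ p) (hp₂ : ∀ y, S.g (S.σ (BL.G y), 1) ≠ p) :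
    ∃ m : ℤ, B4.L (S.P (S.b1 * S.G1)) = FE.kap n a ^ 2 * m := by
  obtain ⟨m₁, hm₁⟩ := S3M2.int_kap F hD hB hdiam hl hE hJ hρ a S.hφ BL hBL hN
    (h := fun b => S.g (b, 1)) (map_at S.hg 1) (fun b t => S.hg1 b t) hp₁
  have hf2 : dB.Map (dM E M) (fun b => S.g (S.σ b, 1)) := fun h => map_at S.hg 1 (S.hσ h)
  obtain ⟨m₂, hm₂⟩ := S3M2.int_kap F hD hB hdiam hl hE hJ hρ a S.hφ BL hBL hN
    (h := fun b => S.g (S.σ b, 1)) hf2 (fun b t => by rw [S.hσφ, S.hg1]) hp₂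
  rw [← hF] at hm₁ hm₂
  have h1 : BL.L S.G1 = FE.kap n a * m₁ := hm₁
  have h2 : BL.L S.G2 = FE.kap n a * m₂ := by
    rw [← hm₂]
    congr 1
    exact H584.pull_pull S.hσ (map_at S.hg 1) hf2 (fun b => rfl) S.F
  have h3 := S3I.val_b1G1 S hP hFd hb hu hL (fun w hw => hBL.tf.bas w hw)
  rw [h1, h2] at h3
  have h4 : (ε * S.k) ^ 2 = (2 * FE.kap n a) ^ 2 := by rw [mul_pow, hε, hk]; ring
  rcases sq_eq_sq_iff_eq_or_eq_neg.1 h4 with h5 | h5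
  · exact ⟨m₁ + m₂, by rw [h3, h5]; push_cast; ring⟩
  · exact ⟨-(m₁ + m₂), by rw [h3, h5]; push_cast; ring⟩

end

end Vale.Agent.P231.H230
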