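import Vale.Agent.P231.H230.Step

/-!
# P231, stage 3, block K1: `∫ psi (d psi) = ± κ²` for a spread of `m`-planes of `ℝ^(2 m)`
-/

set_option linter.unusedSectionVars false
set_option linter.unusedVariables false

open Module MeasureTheory Set Metric Filter
open scoped ContDiff Topology

namespace Vale.Agent.P231.H230

open Fm WA FE TW

/-! ### the smooth transition at one half -/

theorem st_half : Real.smoothTransition (1 / 2) = 1 / 2 := by
  unfold Real.smoothTransition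
  have h0 : 0 < expNegInvGlue (1 / 2) := expNegInvGlue.pos_of_pos (by norm_num)
  have e1 : (1 : ℝ) - 1 / 2 = 1 / 2 := by norm_num
  rw [e1]
  field_simp
  ring

theorem st_eq_half {t : ℝ} (h : Real.smoothTransition t = 1 / 2) : t = 1 / 2 := by
  have hpos := Real.smoothTransition.pos_denom t
  have h1 : expNegInvGlue t = expNegInvGlue (1 - t) := by
    unfold Real.smoothTransition at h
    rw [div_eq_iff hpos.ne'] at h
    linarith
  rcases le_or_gt t 0 with ht | ht
  · rw [expNegInvGlue.zero_of_nonpos ht] at h1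
    exact absurd h1.symm (expNegInvGlue.pos_of_pos (by linarith)).ne'
  · rcases le_or_gt 1 t with ht1 | ht1
    · rw [expNegInvGlue.zero_of_nonpos (by linarith : 1 - t ≤ 0)] at h1
      exact absurd h1 (expNegInvGlue.pos_of_pos ht).ne'
    · have h2 : 0 < 1 - t := by linarith
      unfold expNegInvGlue at h1
      rw [if_neg (not_le.2 ht), if_neg (not_le.2 h2)] at h1
      have h3 := Real.exp_injective h1
      have h4 := neg_injective h3
      have h5 := inv_injective h4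
      linarith

theorem hasDerivAt_st : HasDerivAt Real.smoothTransition 2 (1 / 2) := by
  have hE : HasDerivAt (fun t : ℝ => Real.exp (-t⁻¹)) (4 * Real.exp (-(1 / 2 : ℝ)⁻¹)) (1 / 2) := by
    have h1 : HasDerivAt (fun t : ℝ => -t⁻¹) (4 : ℝ) (1 / 2) :=
      (hasDerivAt_inv (x := (1 / 2 : ℝ)) (by norm_num)).fun_neg.congr_deriv (by norm_num)
    exact h1.exp.congr_deriv (by ring)
  have e1 : (1 : ℝ) - 1 / 2 = 1 / 2 := by norm_num
  have hE2 : HasDerivAt (fun t : ℝ => Real.exp (-(1 - t)⁻¹)) (-(4 * Real.exp (-(1 / 2 : ℝ)⁻¹)))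
      (1 / 2) := by
    have h1 : HasDerivAt (fun t : ℝ => 1 - t) (-1 : ℝ) (1 / 2) :=
      (hasDerivAt_id (1 / 2 : ℝ)).const_sub 1
    have hE' : HasDerivAt (fun t : ℝ => Real.exp (-t⁻¹)) (4 * Real.exp (-(1 / 2 : ℝ)⁻¹))
        (1 - 1 / 2) := by rw [e1]; exact hE
    exact (hE'.comp (1 / 2 : ℝ) h1).congr_deriv (by ring)
  have hpos : 0 < Real.exp (-(1 / 2 : ℝ)⁻¹) := Real.exp_pos _
  have hq : HasDerivAt (fun t : ℝ => Real.exp (-t⁻¹) / (Real.exp (-t⁻¹) + Real.exp (-(1 - t)⁻¹)))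
      2 (1 / 2) := by
    have h1 : HasDerivAt (fun t : ℝ => Real.exp (-t⁻¹) + Real.exp (-(1 - t)⁻¹)) _ (1 / 2) :=
      hE.fun_add hE2
    have h2 := hE.fun_div h1 (by rw [e1]; positivity)
    refine h2.congr_deriv ?_
    rw [e1]
    field_simp
    ring
  have hev : Real.smoothTransition =ᶠ[𝓝 (1 / 2 : ℝ)]
      fun t : ℝ => Real.exp (-t⁻¹) / (Real.exp (-t⁻¹) + Real.exp (-(1 - t)⁻¹)) := by
    have h1 : Ioo (0 : ℝ) 1 ∈ 𝓝 (1 / 2 : ℝ) := Ioo_mem_nhds (by norm_num) (by norm_num)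
    filter_upwards [h1] with t ht
    have h2 : ¬ t ≤ 0 := not_le.2 ht.1
    have h3 : ¬ 1 - t ≤ 0 := not_le.2 (by linarith [ht.2])
    simp only [Real.smoothTransition, expNegInvGlue, if_neg h2, if_neg h3]
  exact hq.congr_of_eventuallyEq hev

variable {V : Type*} [NormedAddCommGroup V] [InnerProductSpace ℝ V] [FiniteDimensional ℝ V]
  [MeasurableSpace V] [BorelSpace V]
variable {m : ℕ} {Pi : V → V →L[ℝ] V} {psi : V → Lam V} {κ : ℝ}

/-- the first stage, explicit form -/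
theorem stage_zero_exp (h : Spread m Pi) (hm : 3 ≤ m) (A : Ang m Pi psi κ) {u : V} (hu : u ≠ 0)
    {e0 : EuclideanSpace ℝ (Fin m)} (he : ‖e0‖ = 1)
    (bY : Basis (Fin (m - 1)) ℝ (Submodule.span ℝ {e0})ᗮ)
    (io : EuclideanSpace ℝ (Fin m) →ₗᵢ[ℝ] V) (hio : ∀ w, Pi u (io w) = io w) :
    Stage Pi psi κ m 0 bY (closedBall 0 1) (fun y => io (th e0 y)) := by
  have hYdim : finrank ℝ (Submodule.span ℝ {e0})ᗮ = m - 1 :=
    (finrank_eq_card_basis bY).trans (Fintype.card_fin _)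
  let Φ : (Submodule.span ℝ {e0})ᗮ → V := fun y => io (th e0 y)
  have hΦ : ContDiff ℝ ∞ Φ := io.toContinuousLinearMap.contDiff.comp (contDiff_th he)
  have hn : ∀ y, ‖Φ y‖ = 1 := fun y => by rw [io.norm_map, norm_th he]
  have h0 : ∀ y, Φ y ≠ 0 := fun y => by
    rw [← norm_ne_zero_iff, hn]
    exact one_ne_zero
  have hcon : ∀ y ∉ closedBall (0 : (Submodule.span ℝ {e0})ᗮ) 1, fderiv ℝ Φ y = 0 := by
    intro y hy
    have h1 : Φ =ᶠ[𝓝 y] fun _ => io e0 := by
      filter_upwards [th_const he hy] with y' hy'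
      change io (th e0 y') = io e0
      rw [hy']
    rw [h1.fderiv_eq, fderiv_const_apply]
  refine ⟨⟨hΦ, hn, isCompact_closedBall _ _, fun y hy => ?_⟩, fun y => ?_, fun y => ?_, ?_, ?_⟩
  · rw [hcon y hy, rk_zero]
    omega
  · by_cases hy : y ∈ closedBall (0 : (Submodule.span ℝ {e0})ᗮ) 1
    · exact ⟨y, hy, rfl⟩
    · rw [mem_closedBall_zero_iff, not_le] at hy
      have hy0 : ‖y‖ ≠ 0 := by linarith
      have h1 : ‖(‖y‖⁻¹ • y)‖ = 1 := by
        rw [norm_smul, norm_inv, norm_norm, inv_mul_cancel₀ hy0]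
      refine ⟨‖y‖⁻¹ • y, ?_, ?_⟩
      · rw [mem_closedBall_zero_iff, h1]
      · rw [th_out he h1.ge, th_out he hy.le]
  · have h1 := Spread.nrk_le h (f := Φ) (c := fun _ => u) (z := y)
      (hΦ.differentiable (by simp) y) (differentiableAt_const u) (h0 y) hu
      (Eventually.of_forall fun y => hio _)
    rw [nrk_const] at h1
    change nrk Pi Φ y + m ≤ _
    omega
  · omega
  · rw [zero_add, pow_one, ← Ang.kappa_th h A hm he bY (T := io.toContinuousLinearMap)
      io.injective hu hio]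
    congr 1
    refine JJ_congr _ fun y => ?_
    change pull _ (psi _ * extd psi _ ^ 0) = pull _ (psi _)
    rw [pow_zero, mul_one]
    rfl

/-- the derivative of a unit vector field is orthogonal to it -/
theorem inner_th_fderiv {e0 : EuclideanSpace ℝ (Fin m)} (he : ‖e0‖ = 1)
    (y u : (Submodule.span ℝ {e0})ᗮ) : inner ℝ (th e0 y) (fderiv ℝ (th e0) y u) = 0 := by
  have h1 : HasFDerivAt (th e0) (fderiv ℝ (th e0) y) y :=
    ((contDiff_th he).differentiable (by simp) y).hasFDerivAt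
  have h2 := h1.norm_sq
  have h3 : (fun x => ‖th e0 x‖ ^ 2) = fun _ => 1 := by
    funext x
    rw [norm_th he, one_pow]
  rw [h3] at h2
  have h4 := congrArg (fun L => L u) (h2.unique (hasFDerivAt_const 1 y))
  simpa using h4

/-- the derivative along the fibre -/
theorem inj_fib {e0 : EuclideanSpace ℝ (Fin m)} (he : ‖e0‖ = 1)
    {T0 : EuclideanSpace ℝ (Fin m) →L[ℝ] V} (hT : Function.Injective T0)
    {u : (Submodule.span ℝ {e0})ᗮ} (hu : fderiv ℝ (fun y => rad (T0 (th e0 y))) 0 u = 0) :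
    u = 0 := by
  have hth0 : th e0 (0 : (Submodule.span ℝ {e0})ᗮ) ≠ 0 := by
    rw [← norm_ne_zero_iff, norm_th he]
    exact one_ne_zero
  have hf0 : T0 (th e0 (0 : (Submodule.span ℝ {e0})ᗮ)) ≠ 0 := fun h0 =>
    hth0 (hT (by rw [map_zero]; exact h0))
  have hf : HasFDerivAt (fun y => T0 (th e0 y)) (T0 ∘L fderiv ℝ (th e0) 0)
      (0 : (Submodule.span ℝ {e0})ᗮ) :=
    T0.hasFDerivAt.comp _ ((contDiff_th he).differentiable (by simp) _).hasFDerivAt
  have hg : HasFDerivAt (fun y => rad (T0 (th e0 y)))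
      (fderiv ℝ (fun y => rad (T0 (th e0 y))) 0) (0 : (Submodule.span ℝ {e0})ᗮ) := by
    have h1 : ContDiffAt ℝ ∞ (fun y => T0 (th e0 y)) (0 : (Submodule.span ℝ {e0})ᗮ) :=
      (T0.contDiff.comp (contDiff_th he)).contDiffAt
    exact (((contDiffAt_rad hf0).comp (0 : (Submodule.span ℝ {e0})ᗮ) h1).differentiableAt
      (by simp)).hasFDerivAt
  have hn : DifferentiableAt ℝ (fun y => ‖T0 (th e0 y)‖) (0 : (Submodule.span ℝ {e0})ᗮ) :=
    hf.differentiableAt.norm ℝ hf0
  have h1 := hn.hasFDerivAt.smul hg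
  have h2 : (fun y : (Submodule.span ℝ {e0})ᗮ => ‖T0 (th e0 y)‖ • rad (T0 (th e0 y))) =ᶠ[𝓝 0]
      fun y => T0 (th e0 y) := by
    have h3 : ∀ᶠ y in 𝓝 (0 : (Submodule.span ℝ {e0})ᗮ), T0 (th e0 y) ≠ 0 :=
      hf.continuousAt.eventually_ne hf0
    filter_upwards [h3] with y hy
    rw [rad, smul_smul, mul_inv_cancel₀ (norm_ne_zero_iff.2 hy), one_smul]
  have h3 := (h1.congr_of_eventuallyEq h2.symm).unique hf
  have h4 := congrArg (fun L => L u) h3
  simp only [add_apply, smul_apply, ContinuousLinearMap.smulRight_apply, hu, smul_zero, zero_add,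
    ContinuousLinearMap.comp_apply] at h4
  set lam := fderiv ℝ (fun y => ‖T0 (th e0 y)‖) (0 : (Submodule.span ℝ {e0})ᗮ) u with hlam
  have h5 : fderiv ℝ (th e0) 0 u =
      (lam * ‖T0 (th e0 (0 : (Submodule.span ℝ {e0})ᗮ))‖⁻¹) • th e0 0 := by
    apply hT
    rw [map_smul, ← h4, rad, smul_smul]
  have h6 := inner_th_fderiv he 0 u
  rw [h5, inner_smul_right, real_inner_self_eq_norm_sq, norm_th he, one_pow, mul_one] at h6
  rw [h6, zero_smul] at h5
  exact th_inj he (by rw [h5, map_zero])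

/-- two different leaves meet in the origin -/
theorem leaf_inter (h : Spread m Pi) {u c v : V} (hu : u ≠ 0) (hc : c ≠ 0) (huc : Pi u c ≠ c)
    (h1 : Pi u v = v) (h2 : Pi c v = v) : v = 0 := by
  by_contra hv
  have e1 := h.rel u v hu hv h1
  have e2 := h.rel c v hc hv h2
  exact huc (by rw [← e1, e2, h.self c hc])

/-- the affine plane through `-a` parallel to the leaf of `u` meets every other leaf once -/
theorem sg_unique (h : Spread m Pi) {u a p p0 : V} (hu : u ≠ 0) (ha : Pi u a ≠ a)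
    (hp : Pi u p = p) (hp1 : ‖p‖ = 1) (hp0 : Pi u p0 = p0) (hp01 : ‖p0‖ = 1) {s : ℝ}
    (hs0 : 0 ≤ s) (hs1 : s ≤ 1) (h1 : Pi (sg a (p0, 1 / 2)) (sg a (p, s)) = sg a (p, s)) :
    s = 1 / 2 ∧ p = p0 := by
  have hc : Pi u (sg a (p0, 1 / 2)) ≠ sg a (p0, 1 / 2) := by
    intro h2
    apply ha
    have h3 : sg a (p0, 1 / 2) = (1 / 2 : ℝ) • p0 - (1 / 2 : ℝ) • a := by
      simp only [sg]
      norm_num
    rw [h3, map_sub, map_smul, map_smul, hp0, sub_right_inj] at h2
    exact smul_right_injective V (by norm_num : (1 / 2 : ℝ) ≠ 0) h2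
  have hc0 : sg a (p0, 1 / 2) ≠ 0 := fun h0 => hc (by rw [h0, map_zero])
  have h2 : (1 - s) • p - s • p0 = sg a (p, s) - (2 * s) • sg a (p0, 1 / 2) := by
    simp only [sg]
    module
  have h3 : (1 - s) • p - s • p0 = 0 := by
    refine leaf_inter h hu hc0 hc ?_ ?_
    · rw [map_sub, map_smul, map_smul, hp, hp0]
    · rw [h2, map_sub, map_smul, h1, h.self _ hc0]
  rw [sub_eq_zero] at h3
  have h4 : 1 - s = s := by
    have h5 := congrArg norm h3
    rwa [norm_smul, norm_smul, hp1, hp01, mul_one, mul_one, Real.norm_eq_abs, Real.norm_eq_abs,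
      abs_of_nonneg (by linarith), abs_of_nonneg hs0] at h5
  have h5 : s = 1 / 2 := by linarith
  refine ⟨h5, ?_⟩
  rw [h5] at h3
  norm_num at h3
  exact h3

/-- the value of the second stage determines the parameters -/
theorem val_unique (h : Spread m Pi) {u a : V} (hu : u ≠ 0) (ha : Pi u a ≠ a)
    {e0 : EuclideanSpace ℝ (Fin m)} (he : ‖e0‖ = 1)
    {io : EuclideanSpace ℝ (Fin m) →ₗᵢ[ℝ] V} (hio : ∀ w, Pi u (io w) = io w)
    {T : V × ℝ → EuclideanSpace ℝ (Fin m) →L[ℝ] V}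
    (hT : ∀ z : (Submodule.span ℝ {e0})ᗮ × ℝ,
      Function.Injective (T (io (th e0 z.1), Real.smoothTransition z.2)) ∧
        ∀ w, Pi (pth a (fun y => io (th e0 y)) z)
          (T (io (th e0 z.1), Real.smoothTransition z.2) w) =
            T (io (th e0 z.1), Real.smoothTransition z.2) w)
    (hc0 : ∀ z : (Submodule.span ℝ {e0})ᗮ × ℝ, pth a (fun y => io (th e0 y)) z ≠ 0)
    {x : ((Submodule.span ℝ {e0})ᗮ × ℝ) × (Submodule.span ℝ {e0})ᗮ}
    (hx : rad (T (io (th e0 x.1.1), Real.smoothTransition x.1.2) (th e0 x.2)) =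
      rad (T (io (th e0 0), Real.smoothTransition (1 / 2)) (th e0 0))) :
    x = ((0, 1 / 2), 0) := by
  obtain ⟨⟨y, t⟩, y'⟩ := x
  simp only at hx
  have hth0 : ∀ y, th e0 y ≠ 0 := fun y => by
    rw [← norm_ne_zero_iff, norm_th he]
    exact one_ne_zero
  set Tx := T (io (th e0 y), Real.smoothTransition t) with hTx
  set T0 := T (io (th e0 0), Real.smoothTransition (1 / 2)) with hT0
  obtain ⟨i1, i2⟩ := hT (y, t)
  obtain ⟨j1, j2⟩ := hT ((0 : (Submodule.span ℝ {e0})ᗮ), (1 / 2 : ℝ))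
  have f1 : Tx (th e0 y') ≠ 0 := fun h0 => hth0 _ (i1 (by rw [map_zero]; exact h0))
  have f2 : T0 (th e0 0) ≠ 0 := fun h0 => hth0 _ (j1 (by rw [map_zero]; exact h0))
  -- the leaves agree
  have k1 : Pi (rad (Tx (th e0 y'))) = Pi (pth a (fun y => io (th e0 y)) (y, t)) := by
    refine h.rel _ _ (hc0 _) ?_ ?_
    · rw [← norm_ne_zero_iff, norm_rad f1]
      exact one_ne_zero
    · rw [rad, map_smul]
      congr 1
      exact i2 _
  have k2 : Pi (rad (T0 (th e0 0))) =
      Pi (pth a (fun y => io (th e0 y)) ((0 : (Submodule.span ℝ {e0})ᗮ), (1 / 2 : ℝ))) := by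
    refine h.rel _ _ (hc0 _) ?_ ?_
    · rw [← norm_ne_zero_iff, norm_rad f2]
      exact one_ne_zero
    · rw [rad, map_smul]
      congr 1
      exact j2 _
  have k3 : pth a (fun y => io (th e0 y)) (y, t) = sg a (io (th e0 y), Real.smoothTransition t) :=
    rfl
  have k4 : pth a (fun y => io (th e0 y)) ((0 : (Submodule.span ℝ {e0})ᗮ), (1 / 2 : ℝ)) =
      sg a (io (th e0 0), 1 / 2) := by
    change sg a (io (th e0 0), Real.smoothTransition (1 / 2)) = _
    rw [st_half]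
  have k5 : Pi (sg a (io (th e0 0), 1 / 2)) (sg a (io (th e0 y), Real.smoothTransition t)) =
      sg a (io (th e0 y), Real.smoothTransition t) := by
    rw [← k4, ← k2, ← hx, k1, ← k3]
    exact h.self _ (hc0 _)
  obtain ⟨l1, l2⟩ := sg_unique h hu ha (hio _) (by rw [io.norm_map, norm_th he]) (hio _)
    (by rw [io.norm_map, norm_th he]) (Real.smoothTransition.nonneg _)
    (Real.smoothTransition.le_one _) k5
  have l3 : y = 0 := th_unique he (io.injective l2)
  have l4 : t = 1 / 2 := st_eq_half l1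
  subst l3
  subst l4
  -- the fibre
  have m1 : Tx = T0 := rfl
  rw [m1] at hx f1
  have m2 : T0 ((‖T0 (th e0 0)‖ * ‖T0 (th e0 y')‖⁻¹) • th e0 y') = T0 (th e0 0) := by
    rw [rad, rad] at hx
    rw [map_smul, ← smul_smul, hx, smul_smul, mul_inv_cancel₀ (norm_ne_zero_iff.2 f2), one_smul]
  have m3 := j1 m2
  have m4 : ‖T0 (th e0 0)‖ * ‖T0 (th e0 y')‖⁻¹ = 1 := by
    have h5 := congrArg norm m3
    rw [norm_smul, norm_th he, norm_th he, mul_one, Real.norm_eq_abs, abs_of_nonneg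
      (by positivity)] at h5
    exact h5
  rw [m4, one_smul] at m3
  rw [th_unique he m3]

/-- the derivative of the second stage is injective at the chosen point -/
theorem val_inj (h : Spread m Pi) {u a : V} (hu : u ≠ 0) (ha : Pi u a ≠ a)
    {e0 : EuclideanSpace ℝ (Fin m)} (he : ‖e0‖ = 1)
    {io : EuclideanSpace ℝ (Fin m) →ₗᵢ[ℝ] V} (hio : ∀ w, Pi u (io w) = io w)
    {T : V × ℝ → EuclideanSpace ℝ (Fin m) →L[ℝ] V}
    (hT : ∀ z : (Submodule.span ℝ {e0})ᗮ × ℝ,
      Function.Injective (T (io (th e0 z.1), Real.smoothTransition z.2)) ∧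
        ∀ w, Pi (pth a (fun y => io (th e0 y)) z)
          (T (io (th e0 z.1), Real.smoothTransition z.2) w) =
            T (io (th e0 z.1), Real.smoothTransition z.2) w)
    (hc0 : ∀ z : (Submodule.span ℝ {e0})ᗮ × ℝ, pth a (fun y => io (th e0 y)) z ≠ 0)
    (hd : Differentiable ℝ fun x : ((Submodule.span ℝ {e0})ᗮ × ℝ) × (Submodule.span ℝ {e0})ᗮ =>
      rad (T (io (th e0 x.1.1), Real.smoothTransition x.1.2) (th e0 x.2))) :
    Function.Injective (fderiv ℝ
      (fun x : ((Submodule.span ℝ {e0})ᗮ × ℝ) × (Submodule.span ℝ {e0})ᗮ =>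
        rad (T (io (th e0 x.1.1), Real.smoothTransition x.1.2) (th e0 x.2)))
        (((0 : (Submodule.span ℝ {e0})ᗮ), (1 / 2 : ℝ)), (0 : (Submodule.span ℝ {e0})ᗮ))) := by
  set Y := (Submodule.span ℝ {e0})ᗮ with hY
  let Φ : Y → V := fun y => io (th e0 y)
  let f : (Y × ℝ) × Y → V := fun x => rad (T (Φ x.1.1, Real.smoothTransition x.1.2) (th e0 x.2))
  let c : Y × ℝ → V := pth a Φ
  set x₀ : (Y × ℝ) × Y := (((0 : Y), (1 / 2 : ℝ)), (0 : Y)) with hx₀
  have hΦ : ContDiff ℝ ∞ Φ := io.toContinuousLinearMap.contDiff.comp (contDiff_th he)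
  have hc : ContDiff ℝ ∞ c := contDiff_pth hΦ
  have hth0 : ∀ y, th e0 y ≠ 0 := fun y => by
    rw [← norm_ne_zero_iff, norm_th he]
    exact one_ne_zero
  have hpre0 : ∀ x : (Y × ℝ) × Y, T (Φ x.1.1, Real.smoothTransition x.1.2) (th e0 x.2) ≠ 0 :=
    fun x h0 => hth0 _ ((hT x.1).1 (by rw [map_zero]; exact h0))
  have hf0 : ∀ x, f x ≠ 0 := fun x => by
    rw [← norm_ne_zero_iff, norm_rad (hpre0 x)]
    exact one_ne_zero
  -- the leaves
  have hleaf : ∀ x, Pi (f x) = Pi (c x.1) := fun x => by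
    refine h.rel _ _ (hc0 _) (hf0 x) ?_
    change Pi (c x.1) (rad _) = rad _
    rw [rad, map_smul]
    congr 1
    exact (hT x.1).2 _
  rw [injective_iff_map_eq_zero]
  intro v hv
  change fderiv ℝ f x₀ v = 0 at hv
  have hfd : DifferentiableAt ℝ f x₀ := hd x₀
  have hcd : DifferentiableAt ℝ c x₀.1 := hc.differentiable (by simp) _
  have hPf : HasFDerivAt (fun x => Pi (f x)) (fderiv ℝ Pi (f x₀) ∘L fderiv ℝ f x₀) x₀ :=
    ((h.smooth _ (hf0 x₀)).differentiableAt (by simp)).hasFDerivAt.comp x₀ hfd.hasFDerivAt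
  have hc1 : HasFDerivAt (fun x : (Y × ℝ) × Y => c x.1)
      (fderiv ℝ c x₀.1 ∘L ContinuousLinearMap.fst ℝ (Y × ℝ) Y) x₀ :=
    hcd.hasFDerivAt.comp x₀ hasFDerivAt_fst
  have hPc : HasFDerivAt (fun x : (Y × ℝ) × Y => Pi (c x.1))
      (fderiv ℝ Pi (f x₀) ∘L fderiv ℝ f x₀) x₀ := by
    have : (fun x : (Y × ℝ) × Y => Pi (c x.1)) = fun x => Pi (f x) := by
      funext x
      rw [hleaf]
    rw [this]
    exact hPf
  have h1 := hPc.clm_apply hc1
  have h2 : (fun x : (Y × ℝ) × Y => Pi (c x.1) (c x.1)) = fun x => c x.1 := by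
    funext x
    exact h.self _ (hc0 _)
  rw [h2] at h1
  have h3 := congrArg (fun L => L v) (h1.unique hc1)
  simp only [add_apply, ContinuousLinearMap.comp_apply, ContinuousLinearMap.flip_apply, hv,
    map_zero, add_zero, ContinuousLinearMap.coe_fst', zero_apply] at h3
  -- the derivative of the path
  have hp0 : Pi u (Φ 0) = Φ 0 := hio _
  have hp1 : ‖Φ 0‖ = 1 := by
    change ‖io _‖ = 1
    rw [io.norm_map, norm_th he]
  have hΦd : HasFDerivAt (fun z : Y × ℝ => Φ z.1)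
      (fderiv ℝ Φ 0 ∘L ContinuousLinearMap.fst ℝ Y ℝ) x₀.1 :=
    (hΦ.differentiable (by simp) _).hasFDerivAt.comp x₀.1 hasFDerivAt_fst
  have hst : HasFDerivAt (fun z : Y × ℝ => Real.smoothTransition z.2)
      ((2 : ℝ) • ContinuousLinearMap.snd ℝ Y ℝ) x₀.1 :=
    HasDerivAt.comp_hasFDerivAt (f := fun z : Y × ℝ => z.2) x₀.1
      (h₂ := Real.smoothTransition) (h₂' := 2) hasDerivAt_st hasFDerivAt_snd
  have hcd' : fderiv ℝ c x₀.1 v.1 = (1 / 2 : ℝ) • fderiv ℝ Φ 0 v.1.1 -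
      (2 * v.1.2) • (Φ 0 + a) := by
    have k1 : HasFDerivAt c _ x₀.1 :=
      (((hasFDerivAt_const (1 : ℝ) x₀.1).sub hst).smul hΦd).sub (hst.smul_const a)
    rw [k1.fderiv]
    simp only [sub_apply, add_apply, smul_apply, ContinuousLinearMap.smulRight_apply,
      ContinuousLinearMap.comp_apply, ContinuousLinearMap.coe_fst', ContinuousLinearMap.coe_snd',
      zero_apply, smul_eq_mul, hx₀]
    have k2 : ((fun _ : Y × ℝ => (1 : ℝ)) - fun z : Y × ℝ => Real.smoothTransition z.2)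
        ((0 : Y), (1 / 2 : ℝ)) = 1 / 2 := by
      change 1 - Real.smoothTransition (1 / 2) = 1 / 2
      rw [st_half]
      norm_num
    rw [k2]
    module
  have hcx : c x₀.1 = (1 / 2 : ℝ) • Φ 0 - (1 / 2 : ℝ) • a := by
    change (1 - Real.smoothTransition (1 / 2)) • Φ 0 - Real.smoothTransition (1 / 2) • a = _
    rw [st_half]
    norm_num
  have hL : Pi (c x₀.1) (fderiv ℝ c x₀.1 v.1) = fderiv ℝ c x₀.1 v.1 := h3
  have huc : Pi u (c x₀.1) ≠ c x₀.1 := by
    intro h4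
    apply ha
    rw [hcx, map_sub, map_smul, map_smul, hp0, sub_right_inj] at h4
    exact smul_right_injective V (by norm_num : (1 / 2 : ℝ) ≠ 0) h4
  have hΦu : ∀ y, Pi u (fderiv ℝ Φ 0 y) = fderiv ℝ Φ 0 y := by
    intro y
    have k1 : fderiv ℝ Φ 0 = io.toContinuousLinearMap ∘L fderiv ℝ (th e0) 0 :=
      (io.toContinuousLinearMap.hasFDerivAt.comp _
        ((contDiff_th he).differentiable (by simp) _).hasFDerivAt).fderiv
    rw [k1]
    exact hio _
  have h5 : (1 / 2 : ℝ) • fderiv ℝ Φ 0 v.1.1 - (4 * v.1.2) • Φ 0 = 0 := by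
    refine leaf_inter h hu (hc0 x₀.1) huc ?_ ?_
    · rw [map_sub, map_smul, map_smul, hΦu, hp0]
    · have k1 : (1 / 2 : ℝ) • fderiv ℝ Φ 0 v.1.1 - (4 * v.1.2) • Φ 0 =
          fderiv ℝ c x₀.1 v.1 - (4 * v.1.2) • c x₀.1 := by
        rw [hcd', hcx]
        module
      change Pi (c x₀.1) _ = _
      rw [k1, map_sub, map_smul, hL, h.self _ (hc0 x₀.1)]
  have hort : inner ℝ (Φ 0) (fderiv ℝ Φ 0 v.1.1) = 0 := by
    have k1 : fderiv ℝ Φ 0 = io.toContinuousLinearMap ∘L fderiv ℝ (th e0) 0 :=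
      (io.toContinuousLinearMap.hasFDerivAt.comp _
        ((contDiff_th he).differentiable (by simp) _).hasFDerivAt).fderiv
    rw [k1]
    change inner ℝ (io (th e0 0)) (io (fderiv ℝ (th e0) 0 v.1.1)) = 0
    rw [io.inner_map_map]
    exact inner_th_fderiv he 0 _
  have h6 : v.1.2 = 0 := by
    have k1 := congrArg (fun w => inner ℝ (Φ 0) w) h5
    simp only [inner_sub_right, inner_smul_right, hort, real_inner_self_eq_norm_sq, hp1,
      inner_zero_right] at k1
    linarith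
  have h7 : v.1.1 = 0 := by
    rw [h6, mul_zero, zero_smul, sub_zero] at h5
    have k2 := (smul_eq_zero.1 h5).resolve_left (by norm_num)
    have k1 : fderiv ℝ Φ 0 = io.toContinuousLinearMap ∘L fderiv ℝ (th e0) 0 :=
      (io.toContinuousLinearMap.hasFDerivAt.comp _
        ((contDiff_th he).differentiable (by simp) _).hasFDerivAt).fderiv
    rw [k1] at k2
    have k3 : io (fderiv ℝ (th e0) 0 v.1.1) = 0 := k2
    have k4 : fderiv ℝ (th e0) 0 v.1.1 = 0 := io.injective (by rw [k3, map_zero])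
    exact th_inj he (by rw [k4, map_zero])
  -- the fibre
  have h8 : v.2 = 0 := by
    refine inj_fib he (hT ((0 : Y), (1 / 2 : ℝ))).1 ?_
    have k1 : HasFDerivAt (fun y : Y => f (((0 : Y), (1 / 2 : ℝ)), y))
        (fderiv ℝ f x₀ ∘L ContinuousLinearMap.inr ℝ (Y × ℝ) Y) 0 :=
      hfd.hasFDerivAt.comp (0 : Y) (hasFDerivAt_prodMk_right _ _)
    change fderiv ℝ (fun y : Y => f (((0 : Y), (1 / 2 : ℝ)), y)) 0 v.2 = 0
    rw [k1.fderiv]
    change fderiv ℝ f x₀ ((0 : Y × ℝ), v.2) = 0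
    have k2 : ((0 : Y × ℝ), v.2) = v := by
      refine Prod.ext ?_ rfl
      exact (Prod.ext h7 h6).symm
    rw [k2, hv]
  exact Prod.ext (Prod.ext h7 h6) h8

/-- **`∫ psi (d psi) = ± κ²` for two leaves** -/
theorem k_one (h : Spread m Pi) (hm : 3 ≤ m) (A : Ang m Pi psi κ)
    (hV : finrank ℝ V = m * 2) {N : ℕ} (b : Basis (Fin N) ℝ V) {r : V → ℝ} {K : Set V}
    (hr : Q.Cut r K) :
    |∫ y, evalForm (Q.dR r y * Q.om psi 1 y) b ∂b.addHaar| = κ ^ 2 := by
  have : Nontrivial V := Module.nontrivial_of_finrank_pos (R := ℝ) (by omega)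
  obtain ⟨u, hu⟩ := exists_ne (0 : V)
  obtain ⟨io, hio⟩ := exists_leaf h hu
  obtain ⟨e0, he⟩ : ∃ e0 : EuclideanSpace ℝ (Fin m), ‖e0‖ = 1 :=
    ⟨EuclideanSpace.single (⟨0, by omega⟩ : Fin m) 1, by simp⟩
  have hY : finrank ℝ (Submodule.span ℝ {e0})ᗮ = m - 1 := by
    have h1 := finrank_Y he
    rw [finrank_euclideanSpace_fin] at h1
    omega
  obtain ⟨bY⟩ : Nonempty (Basis (Fin (m - 1)) ℝ (Submodule.span ℝ {e0})ᗮ) :=
    ⟨finBasisOfFinrankEq ℝ _ hY⟩
  obtain ⟨a, ha1, ha⟩ : ∃ a : V, ‖a‖ = 1 ∧ Pi u a ≠ a := by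
    obtain ⟨v, hv⟩ : ∃ v, Pi u v ≠ v := by
      by_contra hall
      push Not at hall
      have h1 : LinearMap.range (Pi u : V →ₗ[ℝ] V) = ⊤ := by
        rw [eq_top_iff]
        intro v _
        exact ⟨v, hall v⟩
      have h2 := h.rank u hu
      rw [h1, finrank_top] at h2
      omega
    have hv0 : v ≠ 0 := by
      rintro rfl
      exact hv (map_zero _)
    refine ⟨rad v, norm_rad hv0, fun h1 => hv ?_⟩
    rw [rad, map_smul] at h1
    exact smul_right_injective V (inv_ne_zero (norm_ne_zero_iff.2 hv0)) h1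
  have S0 := stage_zero_exp h hm A hu he bY io hio
  have haΦ : ∀ x : (Submodule.span ℝ {e0})ᗮ, (fun y => io (th e0 y)) x ≠ a := by
    intro x hx
    apply ha
    rw [← hx]
    exact hio _
  obtain ⟨T, K', hT, S1⟩ := step_exp h hm A S0 (by omega) he bY ha1 haΦ
  have hc0 : ∀ z : (Submodule.span ℝ {e0})ᗮ × ℝ, pth a (fun y => io (th e0 y)) z ≠ 0 :=
    fun z => sg_ne ha1 (S0.cyc.norm z.1) (haΦ z.1) (Real.smoothTransition.nonneg _)
      (Real.smoothTransition.le_one _)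
  have hT' : ∀ z : (Submodule.span ℝ {e0})ᗮ × ℝ,
      Function.Injective (T (io (th e0 z.1), Real.smoothTransition z.2)) ∧
        ∀ w, Pi (pth a (fun y => io (th e0 y)) z)
          (T (io (th e0 z.1), Real.smoothTransition z.2) w) =
            T (io (th e0 z.1), Real.smoothTransition z.2) w := fun z => (hT z).2
  have hinj := val_inj h hu ha he hio hT' hc0 (S1.cyc.smooth.differentiable (by simp))
  have hN : finrank ℝ V = N := (finrank_eq_card_basis b).trans (Fintype.card_fin N)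
  obtain rfl : N = 1 + (m - 1 + (1 + (m - 1))) := by omega
  obtain ⟨d, hd1, hd⟩ := S1.cyc.degree_one (by omega) (pB (pB bY bR) bY) b hinj
    (fun x _ hx => val_unique h hu ha he hio hT' hc0 hx)
  have hhom : Hom (Q.om psi 1) := by
    intro y hy
    have hry : rad y ≠ 0 := by
      rw [← norm_ne_zero_iff, norm_rad hy]
      exact one_ne_zero
    have e1 : pb rad (extd psi) y = extd psi y := by
      have h1 : extd (pb rad psi) y = pb rad (extd psi) y :=
        extd_pb ((contDiffAt_rad hy).of_le two_le_inf) (A.diff hry)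
      rw [← h1]
      refine extd_congr ?_
      filter_upwards [isOpen_compl_singleton.mem_nhds hy] with z hz using A.hom z hz
    have e2 : pb rad (Q.om psi 1) y = pb rad psi y * pb rad (extd psi) y ^ 1 := by
      change pull _ (psi _ * extd psi _ ^ 1) = _
      rw [map_mul, map_pow]
      rfl
    rw [e2, e1, A.hom y hy]
    rfl
  have h1 := hd (Q.om psi 1) (A.smooth_om _) hhom
  have h2 := S1.int
  rw [zero_add, h1, abs_mul] at h2
  have hd2 : |(d : ℝ)| = 1 := by
    rw [← Int.cast_abs, hd1, Int.cast_one]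
  rw [hd2, one_mul] at h2
  have h3 : ∀ y : V, y ≠ 0 → evalForm (extd (Q.om psi 1) y) b = 0 := by
    intro y hy
    refine Q.evalForm_eq_zero_of_iprod b hy ?_
    rw [A.extd_om _ hy]
    exact Q.iprod_pow_eq_zero (A.basic y hy y (h.self y hy)) _
  rw [cut_indep b.addHaar b (A.smooth_om 1) h3 hr cut_rst]
  exact h2

end Vale.Agent.P231.H230
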