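import Vale.Agent.P231.FE.Tow
import Vale.Agent.P231.H230.K1

/-!
# P231, stage 3, block K1: the Weinstein number is `± κ²` for two leaves
-/

set_option maxSynthPendingDepth 3
set_option linter.unusedSectionVars false
set_option linter.unusedVariables false

open Bundle Manifold Set Filter Module Topology MeasureTheory
open scoped ContDiff Manifold Topology

namespace Vale.Agent.P231.H230

open Vale.Agent.P234 Vale.Agent.P231 Vale.Agent.P231.Fm Vale.Agent.P231.W Vale.Agent.P231.WE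
  Vale.Agent.P231.WG Vale.Agent.P231.WR Vale.Agent.P231.H775 Vale.Agent.P231.WQ
  Vale.Agent.P231.FE

noncomputable section

variable {E : Type*} [NormedAddCommGroup E] [NormedSpace ℝ E] [FiniteDimensional ℝ E]
  {M : Type*} [MetricSpace M] [ChartedSpace E M] [IsManifold 𝓘(ℝ, E) ∞ M]
  [RiemannianBundle (fun x : M => TangentSpace 𝓘(ℝ, E) x)]
  [IsContMDiffRiemannianBundle 𝓘(ℝ, E) ∞ E (fun x : M => TangentSpace 𝓘(ℝ, E) x)]
  {p : M} {n : ℕ}
  {Pi : TangentSpace 𝓘(ℝ, E) p → TangentSpace 𝓘(ℝ, E) p →L[ℝ] TangentSpace 𝓘(ℝ, E) p}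
  {o : TangentSpace 𝓘(ℝ, E) p → Fm.Lam (TangentSpace 𝓘(ℝ, E) p)}

/-- **the number `q` is `± κ²`** -/
theorem q_eq (h : OS n Pi o) (a : ℝ) (hn : 1 ≤ n)
    (hE : finrank ℝ E = (2 * n + 2) * 2) {k : ℕ} (b : OrthonormalBasis (Fin k) ℝ (Eu E))
    {r : Eu E → ℝ} {K : Set (Eu E)} (hr : Q.Cut r K) :
    |Q.qv volume b r (PsiE n a p Pi o) 1| = FE.kap n a ^ 2 := by
  have hE' : finrank ℝ (Eu E) = (2 * n + 2) * 2 := by
    rw [← hE]
    exact (WQ.frI (E := E) p).toLinearEquiv.finrank_eq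
  have h2 := k_one (spread_E (p := p) h) (by omega) (tw_PsiE h a) hE' b.toBasis hr
  have h1 : b.toBasis.addHaar = volume := b.addHaar_eq_volume
  rw [h1] at h2
  rw [← h2, Q.qv, b.coe_toBasis]

end

end Vale.Agent.P231.H230
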