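import Vale.Agent.P231.H230.K1
import Vale.Agent.P231.Co.FrS

/-!
# P231, stage 3, block K2 (1): the affine chart of the space of leaves of a spread

`L` is an isometric frame of the leaf of `u0`, and `c0` is not in this leaf. Every other leaf
meets the affine plane `c0 + range L` in exactly one point `c0 + L (Sol z)`.
-/

set_option linter.unusedSectionVars false
set_option linter.unusedVariables false

open Module MeasureTheory Set Metric Filter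
open scoped ContDiff Topology

namespace Vale.Agent.P231.H230

open Fm WA FE CoC

noncomputable section

variable {T : Type*} [NormedAddCommGroup T] [InnerProductSpace ℝ T] [FiniteDimensional ℝ T]
variable {n : ℕ} {Pi : T → T →L[ℝ] T} {L : Em n →L[ℝ] T} {u0 c0 : T}

/-- two different leaves meet in the origin -/
theorem leaf_inter' {m : ℕ} (h : Spread m Pi) {u c v : T} (hu : u ≠ 0) (hc : c ≠ 0)
    (huc : Pi u c ≠ c) (h1 : Pi u v = v) (h2 : Pi c v = v) : v = 0 := by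
  by_contra hv
  have e1 := h.rel u v hu hv h1
  have e2 := h.rel c v hc hv h2
  exact huc (by rw [← e1, e2, h.self c hc])

theorem tr_adj (L : Em n →L[ℝ] T) (w : T) (ξ : Em n) :
    inner ℝ (tr L w) ξ = (inner ℝ w (L ξ) : ℝ) := by
  have h1 : L ξ = ∑ a, (inner ℝ (bE n a) ξ : ℝ) • L (bE n a) := by
    conv_lhs => rw [← (bE n).sum_repr' ξ]
    rw [map_sum]
    exact Finset.sum_congr rfl fun a _ => map_smul _ _ _
  rw [tr_apply, h1, sum_inner, inner_sum]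
  refine Finset.sum_congr rfl fun a _ => ?_
  rw [real_inner_smul_left, real_inner_smul_right, real_inner_comm (L (bE n a)) w]
  ring

/-- the linear map of the equation -/
def AA (Pi : T → T →L[ℝ] T) (L : Em n →L[ℝ] T) (z : T) : Em n →L[ℝ] Em n :=
  ContinuousLinearMap.id ℝ (Em n) - tr L ∘L Pi z ∘L L

/-- the coordinate of a leaf -/
def Sol (Pi : T → T →L[ℝ] T) (L : Em n →L[ℝ] T) (c0 z : T) : Em n :=
  -(Ring.inverse (AA Pi L z) (tr L (c0 - Pi z c0)))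

section

variable (h : Spread (2 * n + 2) Pi) (hLn : ∀ ξ, ‖L ξ‖ = ‖ξ‖) (hu0 : u0 ≠ 0)
  (hL0 : ∀ ξ, Pi u0 (L ξ) = L ξ)
include h hLn hu0 hL0

theorem AA_inj {z : T} (hz : z ≠ 0) (hz0 : Pi u0 z ≠ z) {ξ : Em n} (h1 : AA Pi L z ξ = 0) :
    ξ = 0 := by
  have h2 : inner ℝ (AA Pi L z ξ) ξ = (0 : ℝ) := by rw [h1, inner_zero_left]
  have h3 : AA Pi L z ξ = ξ - tr L (Pi z (L ξ)) := rfl
  rw [h3, inner_sub_left, tr_adj, real_inner_self_eq_norm_sq, ← hLn] at h2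
  have h4 : inner ℝ (Pi z (L ξ)) (L ξ) = ‖Pi z (L ξ)‖ ^ 2 := by
    rw [← real_inner_self_eq_norm_sq, ← h.symm z hz, h.idem z hz]
  have h5 : ‖L ξ - Pi z (L ξ)‖ ^ 2 = 0 := by
    rw [@norm_sub_sq_real, real_inner_comm, h4]
    rw [h4] at h2
    linarith
  have h6 : L ξ - Pi z (L ξ) = 0 := norm_eq_zero.1 (pow_eq_zero_iff two_ne_zero |>.1 h5)
  have h7 : L ξ = 0 := leaf_inter' h hu0 hz hz0 (hL0 ξ) (sub_eq_zero.1 h6).symm
  rw [← norm_eq_zero, ← hLn, h7, norm_zero]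

theorem AA_unit {z : T} (hz : z ≠ 0) (hz0 : Pi u0 z ≠ z) : IsUnit (AA Pi L z) := by
  rw [ContinuousLinearMap.isUnit_iff_bijective]
  have h1 : Function.Injective (AA Pi L z : Em n →ₗ[ℝ] Em n) := by
    rw [injective_iff_map_eq_zero]
    intro ξ hξ
    exact AA_inj h hLn hu0 hL0 hz hz0 hξ
  exact ⟨h1, LinearMap.injective_iff_surjective.1 h1⟩

theorem inv_AA {z : T} (hz : z ≠ 0) (hz0 : Pi u0 z ≠ z) (ξ : Em n) :
    Ring.inverse (AA Pi L z) (AA Pi L z ξ) = ξ := by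
  have h1 := Ring.inverse_mul_cancel _ (AA_unit h hLn hu0 hL0 hz hz0)
  have h2 := congrArg (fun A : Em n →L[ℝ] Em n => A ξ) h1
  exact h2

/-- uniqueness -/
theorem Sol_unique {z : T} (hz : z ≠ 0) (hz0 : Pi u0 z ≠ z) {ξ : Em n}
    (h1 : Pi z (c0 + L ξ) = c0 + L ξ) : Sol Pi L c0 z = ξ := by
  have h2 : AA Pi L z ξ = -(tr L (c0 - Pi z c0)) := by
    have h3 : AA Pi L z ξ = ξ - tr L (Pi z (L ξ)) := rfl
    rw [map_add] at h1
    have h4 : Pi z (L ξ) = c0 + L ξ - Pi z c0 := by rw [← h1]; abel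
    rw [h3, h4, ← map_neg]
    have h5 : ξ = tr L (L ξ) := (tr_self hLn ξ).symm
    nth_rewrite 1 [h5]
    rw [← map_sub]
    congr 1
    abel
  rw [Sol, ← map_neg, ← h2, inv_AA h hLn hu0 hL0 hz hz0]

/-- existence -/
theorem exists_Sol (hT : finrank ℝ T = 2 * (2 * n + 2)) {z : T} (hz : z ≠ 0)
    (hz0 : Pi u0 z ≠ z) : ∃ ξ : Em n, Pi z (c0 + L ξ) = c0 + L ξ := by
  let R := LinearMap.range (Pi z : T →ₗ[ℝ] T)
  have hR : finrank ℝ R = 2 * n + 2 := h.rank z hz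
  let f : (Em n × R) →ₗ[ℝ] T :=
    R.subtype ∘ₗ LinearMap.snd ℝ (Em n) R - (L : Em n →ₗ[ℝ] T) ∘ₗ LinearMap.fst ℝ (Em n) R
  have hf : ∀ q : Em n × R, f q = (q.2 : T) - L q.1 := fun q => rfl
  have hinj : Function.Injective f := by
    rw [injective_iff_map_eq_zero]
    rintro ⟨ξ, w⟩ hq
    rw [hf, sub_eq_zero] at hq
    simp only at hq
    have h1 : Pi z (w : T) = w := by
      obtain ⟨v, hv⟩ := w.2
      rw [← hv]
      exact h.idem z hz v
    have h2 : L ξ = 0 := leaf_inter' h hu0 hz hz0 (hL0 ξ) (by rw [← hq, h1])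
    have h3 : ξ = 0 := by rw [← norm_eq_zero, ← hLn, h2, norm_zero]
    rw [h2] at hq
    exact Prod.ext h3 (Subtype.ext hq)
  have hsur : Function.Surjective f := by
    refine (LinearMap.injective_iff_surjective_of_finrank_eq_finrank ?_).1 hinj
    rw [finrank_prod, hR, finrank_euclideanSpace, Fintype.card_fin, hT]
    ring
  obtain ⟨⟨ξ, w⟩, hq⟩ := hsur c0
  rw [hf] at hq
  simp only at hq
  refine ⟨ξ, ?_⟩
  have h1 : Pi z (w : T) = w := by
    obtain ⟨v, hv⟩ := w.2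
    rw [← hv]
    exact h.idem z hz v
  have h2 : c0 + L ξ = w := by rw [← hq]; abel
  rw [h2, h1]

theorem Sol_spec (hT : finrank ℝ T = 2 * (2 * n + 2)) {z : T} (hz : z ≠ 0)
    (hz0 : Pi u0 z ≠ z) : Pi z (c0 + L (Sol Pi L c0 z)) = c0 + L (Sol Pi L c0 z) := by
  obtain ⟨ξ, hξ⟩ := exists_Sol (c0 := c0) h hLn hu0 hL0 hT hz hz0
  rw [Sol_unique h hLn hu0 hL0 hz hz0 hξ]
  exact hξ

theorem cd_Sol {z : T} (hz : z ≠ 0) (hz0 : Pi u0 z ≠ z) : ContDiffAt ℝ ∞ (Sol Pi L c0) z := by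
  have h1 : ContDiffAt ℝ ∞ (AA Pi L) z :=
    contDiffAt_const.sub (contDiffAt_const.clm_comp ((h.smooth z hz).clm_comp contDiffAt_const))
  obtain ⟨U, hU⟩ := AA_unit h hLn hu0 hL0 hz hz0
  have h2 : ContDiffAt ℝ ∞ (Ring.inverse : (Em n →L[ℝ] Em n) → (Em n →L[ℝ] Em n)) (AA Pi L z) := by
    rw [← hU]
    exact contDiffAt_ringInverse ℝ U
  have h3 : ContDiffAt ℝ ∞ (fun z => Ring.inverse (AA Pi L z)) z := h2.comp z h1
  have h4 : ContDiffAt ℝ ∞ (fun z => tr L (c0 - Pi z c0)) z :=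
    (tr L).contDiff.contDiffAt.comp z (contDiffAt_const.sub
      ((h.smooth z hz).clm_apply contDiffAt_const))
  exact (h3.clm_apply h4).neg

end

section

variable (h : Spread (2 * n + 2) Pi) (hLn : ∀ ξ, ‖L ξ‖ = ‖ξ‖) (hu0 : u0 ≠ 0)
  (hL0 : ∀ ξ, Pi u0 (L ξ) = L ξ) (hc0 : Pi u0 c0 ≠ c0)
include hL0 hc0

/-- points of the affine plane are not in the leaf -/
theorem aff_ne (ξ : Em n) : Pi u0 (c0 + L ξ) ≠ c0 + L ξ := by
  intro h1
  apply hc0
  rw [map_add, hL0, add_left_inj] at h1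
  exact h1

theorem smul_aff_ne {s : ℝ} (hs : s ≠ 0) (ξ : Em n) :
    Pi u0 (s • c0 + L ξ) ≠ s • c0 + L ξ := by
  intro h1
  apply hc0
  rw [map_add, hL0, add_left_inj, map_smul] at h1
  exact smul_right_injective T hs h1

theorem aff_ne_zero (ξ : Em n) : c0 + L ξ ≠ 0 := fun h0 => aff_ne hL0 hc0 ξ (by
  rw [h0, map_zero])

include h hLn hu0

theorem Sol_aff (ξ : Em n) : Sol Pi L c0 (c0 + L ξ) = ξ :=
  Sol_unique h hLn hu0 hL0 (aff_ne_zero hL0 hc0 ξ) (aff_ne hL0 hc0 ξ)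
    (h.self _ (aff_ne_zero hL0 hc0 ξ))

theorem Sol_smul_aff {s : ℝ} (hs : s ≠ 0) (ξ : Em n) :
    Sol Pi L c0 (s • c0 + L ξ) = s⁻¹ • ξ := by
  have h1 : s • c0 + L ξ = s • (c0 + L (s⁻¹ • ξ)) := by
    rw [map_smul, smul_add, smul_smul, mul_inv_cancel₀ hs, one_smul]
  have h2 : s • c0 + L ξ ≠ 0 := fun h0 => smul_aff_ne hL0 hc0 hs ξ (by rw [h0, map_zero])
  refine Sol_unique h hLn hu0 hL0 h2 (smul_aff_ne hL0 hc0 hs ξ) ?_
  have h3 : c0 + L (s⁻¹ • ξ) = s⁻¹ • (s • c0 + L ξ) := by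
    rw [h1, smul_smul, inv_mul_cancel₀ hs, one_smul]
  rw [h3, map_smul, h.self _ h2]

end

end

end Vale.Agent.P231.H230
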